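import Vale.Agent.P335.H586.BipChain

/-!
# P335: the spectral gap `1 / (C(a,2) C(b,2))` of the bipartite switch chain is attained
-/

namespace Vale.Agent.P335.H586

open Finset Vale.Agent.P335

/-- the margins `1, 1, 0, ..., 0` -/
def m0 (a : ℕ) (i : Fin a) : ℕ := if i.val < 2 then 1 else 0

section

/-- the first two indices -/
def z0 {a : ℕ} (ha : 2 ≤ a) : Fin a := ⟨0, by omega⟩
def z1 {a : ℕ} (ha : 2 ≤ a) : Fin a := ⟨1, by omega⟩

theorem z_ne {a : ℕ} (ha : 2 ≤ a) : z0 ha ≠ z1 ha := by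
  intro h
  have := congrArg Fin.val h
  simp [z0, z1] at this

theorem z_cases {a : ℕ} (ha : 2 ≤ a) (i : Fin a) : i = z0 ha ∨ i = z1 ha ∨ ¬ i.val < 2 := by
  by_cases h : i.val < 2
  · rcases Nat.lt_succ_iff_lt_or_eq.1 h with h1 | h1
    · left; exact Fin.ext (by simp [z0]; omega)
    · right; left; exact Fin.ext (by simp [z1]; omega)
  · exact Or.inr (Or.inr h)

variable {a b : ℕ} (ha : 2 ≤ a) (hb : 2 ≤ b)

/-- the identity pattern -/
def M1f : Fin a → Fin b → Bool :=
  fun i j => decide ((i = z0 ha ∧ j = z0 hb) ∨ (i = z1 ha ∧ j = z1 hb))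

theorem M1f_row (i : Fin a) : (univ.filter fun j => M1f ha hb i j = true).card = m0 a i := by
  unfold M1f m0
  simp only [decide_eq_true_eq]
  rcases z_cases ha i with rfl | rfl | h
  · have : (univ.filter fun j : Fin b => (z0 ha = z0 ha ∧ j = z0 hb) ∨
        (z0 ha = z1 ha ∧ j = z1 hb)) = {z0 hb} := by
      ext j; simp [z_ne ha]
    rw [this]
    simp [z0]
  · have : (univ.filter fun j : Fin b => (z1 ha = z0 ha ∧ j = z0 hb) ∨
        (z1 ha = z1 ha ∧ j = z1 hb)) = {z1 hb} := by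
      ext j; simp [(z_ne ha).symm]
    rw [this]
    simp [z1]
  · rw [if_neg h, Finset.card_eq_zero, Finset.filter_eq_empty_iff]
    rintro j _ (⟨h1, _⟩ | ⟨h1, _⟩)
    · rw [h1] at h; exact h (by simp [z0])
    · rw [h1] at h; exact h (by simp [z1])

theorem M1f_col (j : Fin b) : (univ.filter fun i => M1f ha hb i j = true).card = m0 b j := by
  have h := M1f_row hb ha j
  rw [← h]
  congr 1
  ext i
  simp only [Finset.mem_filter, Finset.mem_univ, true_and, M1f, decide_eq_true_eq]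
  tauto

/-- the two states -/
def M1 : Margins (m0 a) (m0 b) := ⟨M1f ha hb, M1f_row ha hb, M1f_col ha hb⟩

def M2 : Margins (m0 a) (m0 b) := mv (M1 ha hb) (z0 ha, z1 ha) (z0 hb, z1 hb) (z_ne ha) (z_ne hb)

theorem M1_00 : (M1 ha hb).1 (z0 ha) (z0 hb) = true := by simp [M1, M1f]
theorem M1_11 : (M1 ha hb).1 (z1 ha) (z1 hb) = true := by simp [M1, M1f]
theorem M1_01 : (M1 ha hb).1 (z0 ha) (z1 hb) = false := by
  simp [M1, M1f, (z_ne hb).symm, z_ne ha]
theorem M1_10 : (M1 ha hb).1 (z1 ha) (z0 hb) = false := by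
  simp [M1, M1f, (z_ne ha).symm, z_ne hb]

theorem adj12 : BipAdj (M1 ha hb).1 (M2 ha hb).1 :=
  ⟨z0 ha, z1 ha, z0 hb, z1 hb, z_ne ha, z_ne hb, M1_00 ha hb, M1_11 ha hb, M1_01 ha hb,
    M1_10 ha hb, rfl⟩

theorem M2_val (k : Fin a) (l : Fin b) : (M2 ha hb).1 k l =
    if (k = z0 ha ∨ k = z1 ha) ∧ (l = z0 hb ∨ l = z1 hb) then !((M1 ha hb).1 k l)
      else (M1 ha hb).1 k l := by
  show bipMove (M1 ha hb).1 (z0 ha) (z1 ha) (z0 hb) (z1 hb) k l = _
  unfold bipMove
  rw [if_pos]
  refine ⟨by rw [M1_00, M1_11], by rw [M1_01, M1_10], by rw [M1_00, M1_01]; decide⟩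

theorem M2_00 : (M2 ha hb).1 (z0 ha) (z0 hb) = false := by
  rw [M2_val, if_pos ⟨Or.inl rfl, Or.inl rfl⟩, M1_00]; rfl

theorem M2_11 : (M2 ha hb).1 (z1 ha) (z1 hb) = false := by
  rw [M2_val, if_pos ⟨Or.inr rfl, Or.inr rfl⟩, M1_11]; rfl

theorem M_ne : M1 ha hb ≠ M2 ha hb := by
  intro h
  have h1 := M1_00 ha hb
  rw [h, M2_00] at h1
  exact absurd h1 (by decide)

theorem row_false {M : Margins (m0 a) (m0 b)} {i : Fin a} (h : ¬ i.val < 2) (j : Fin b) :
    M.1 i j = false := by
  have h1 := M.2.1 i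
  unfold m0 at h1
  rw [if_neg h, Finset.card_eq_zero, Finset.filter_eq_empty_iff] at h1
  have := h1 (Finset.mem_univ j)
  simpa using this

theorem col_false {M : Margins (m0 a) (m0 b)} {j : Fin b} (h : ¬ j.val < 2) (i : Fin a) :
    M.1 i j = false := by
  have h1 := M.2.2 j
  unfold m0 at h1
  rw [if_neg h, Finset.card_eq_zero, Finset.filter_eq_empty_iff] at h1
  have := h1 (Finset.mem_univ i)
  simpa using this

theorem row_xor (M : Margins (m0 a) (m0 b)) {i : Fin a} (h : i.val < 2) :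
    M.1 i (z1 hb) = !(M.1 i (z0 hb)) := by
  have h1 := M.2.1 i
  unfold m0 at h1
  rw [if_pos h, Finset.card_eq_one] at h1
  obtain ⟨j, hj⟩ := h1
  have hmem : ∀ l, M.1 i l = true ↔ l = j := by
    intro l
    have : l ∈ (univ.filter fun j => M.1 i j = true) ↔ l ∈ ({j} : Finset (Fin b)) := by rw [hj]
    simpa using this
  have hj2 : j = z0 hb ∨ j = z1 hb := by
    rcases z_cases hb j with h2 | h2 | h2
    · exact Or.inl h2
    · exact Or.inr h2
    · have h3 := col_false (M := M) h2 i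
      rw [(hmem j).2 rfl] at h3
      exact absurd h3 (by decide)
  rcases hj2 with rfl | rfl
  · have e1 : M.1 i (z0 hb) = true := (hmem _).2 rfl
    have e2 : M.1 i (z1 hb) = false := by
      by_contra hc
      have hc' : M.1 i (z1 hb) = true := by simpa using hc
      exact z_ne hb ((hmem _).1 hc').symm
    rw [e1, e2]; rfl
  · have e1 : M.1 i (z1 hb) = true := (hmem _).2 rfl
    have e2 : M.1 i (z0 hb) = false := by
      by_contra hc
      have hc' : M.1 i (z0 hb) = true := by simpa using hc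
      exact z_ne hb ((hmem _).1 hc')
    rw [e1, e2]; rfl

/-- the transpose -/
def tr (M : Margins (m0 a) (m0 b)) : Margins (m0 b) (m0 a) :=
  ⟨fun j i => M.1 i j, M.2.2, M.2.1⟩

theorem col_xor (M : Margins (m0 a) (m0 b)) {j : Fin b} (h : j.val < 2) :
    M.1 (z1 ha) j = !(M.1 (z0 ha) j) := row_xor ha (tr M) h

theorem m_determined {M N : Margins (m0 a) (m0 b)}
    (h : M.1 (z0 ha) (z0 hb) = N.1 (z0 ha) (z0 hb)) : M = N := by
  have v0 : (z0 ha).val < 2 := by simp [z0]
  have v1 : (z1 ha).val < 2 := by simp [z1]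
  have w0 : (z0 hb).val < 2 := by simp [z0]
  refine Subtype.ext (funext fun i => funext fun j => ?_)
  rcases z_cases ha i with rfl | rfl | hi
  · rcases z_cases hb j with rfl | rfl | hj
    · exact h
    · rw [row_xor hb M v0, row_xor hb N v0, h]
    · rw [col_false hj, col_false hj]
  · rcases z_cases hb j with rfl | rfl | hj
    · rw [col_xor ha M w0, col_xor ha N w0, h]
    · rw [row_xor hb M v1, row_xor hb N v1, col_xor ha M w0, col_xor ha N w0, h]
    · rw [col_false hj, col_false hj]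
  · rw [row_false hi, row_false hi]

theorem M_cases (M : Margins (m0 a) (m0 b)) : M = M1 ha hb ∨ M = M2 ha hb := by
  by_cases h : M.1 (z0 ha) (z0 hb) = true
  · left
    exact m_determined ha hb (by rw [h, M1_00])
  · right
    refine m_determined ha hb ?_
    rw [M2_00]
    simpa using h

theorem bipMove_ne {M : Fin a → Fin b → Bool} {i i' : Fin a} {j j' : Fin b} {k : Fin a} {l : Fin b}
    (h : bipMove M i i' j j' k l ≠ M k l) : (k = i ∨ k = i') ∧ (l = j ∨ l = j') := by
  by_contra hc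
  apply h
  unfold bipMove
  split_ifs with h1
  · simp only
    rw [if_neg hc]
  · rfl

theorem pair_of {α : Type*} {x y : α} (hxy : x ≠ y) {p : α × α} (h1 : x = p.1 ∨ x = p.2)
    (h2 : y = p.1 ∨ y = p.2) : p = (x, y) ∨ p = (y, x) := by
  rcases h1 with h1 | h1 <;> rcases h2 with h2 | h2
  · exact absurd (h1.trans h2.symm) hxy
  · left; exact Prod.ext h1.symm h2.symm
  · right; exact Prod.ext h2.symm h1.symm
  · exact absurd (h1.trans h2.symm) hxy

open Classical in
theorem Qb12_le : Qb (m0 a) (m0 b) (M1 ha hb) (M2 ha hb) ≤ 4 / den a b := by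
  have hd := den_pos ha hb
  unfold Qb
  rw [← Finset.sum_product', ← Finset.mul_sum, ← Finset.sum_filter, Finset.sum_const, nsmul_eq_mul,
    mul_one]
  set F := ((univ : Finset (Fin a)).offDiag ×ˢ (univ : Finset (Fin b)).offDiag).filter
    (fun x => bipMove (M1 ha hb).1 x.1.1 x.1.2 x.2.1 x.2.2 = (M2 ha hb).1) with hF
  have hsub : F ⊆ ({(z0 ha, z1 ha), (z1 ha, z0 ha)} : Finset (Fin a × Fin a)) ×ˢ
      ({(z0 hb, z1 hb), (z1 hb, z0 hb)} : Finset (Fin b × Fin b)) := by
    rintro ⟨p, q⟩ hx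
    rw [hF, Finset.mem_filter] at hx
    have hm := hx.2
    simp only at hm
    have n0 : bipMove (M1 ha hb).1 p.1 p.2 q.1 q.2 (z0 ha) (z0 hb) ≠
        (M1 ha hb).1 (z0 ha) (z0 hb) := by
      rw [hm, M2_00, M1_00]; decide
    have n1 : bipMove (M1 ha hb).1 p.1 p.2 q.1 q.2 (z1 ha) (z1 hb) ≠
        (M1 ha hb).1 (z1 ha) (z1 hb) := by
      rw [hm, M2_11, M1_11]; decide
    obtain ⟨a1, a2⟩ := bipMove_ne n0
    obtain ⟨b1, b2⟩ := bipMove_ne n1
    rw [Finset.mem_product]
    simp only [Finset.mem_insert, Finset.mem_singleton]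
    exact ⟨pair_of (z_ne ha) a1 b1, pair_of (z_ne hb) a2 b2⟩
  have hcard : F.card ≤ 4 := by
    refine (Finset.card_le_card hsub).trans ?_
    rw [Finset.card_product]
    exact Nat.mul_le_mul Finset.card_le_two Finset.card_le_two
  have hcard' : (F.card : ℝ) ≤ 4 := by exact_mod_cast hcard
  have e : 1 / ((a * (a - 1) : ℝ) * (b * (b - 1) : ℝ)) = 1 / den a b := rfl
  rw [e, one_div_mul_eq_div]
  gcongr

open Classical in
/-- the eigenfunction -/
noncomputable def ef' (M : Margins (m0 a) (m0 b)) : ℝ := if M = M1 ha hb then 1 else -1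

theorem ef'1 : ef' ha hb (M1 ha hb) = 1 := by unfold ef'; simp

theorem ef'2 : ef' ha hb (M2 ha hb) = -1 := by unfold ef'; simp [(M_ne ha hb).symm]

open Classical in
theorem sum_two' (F : Margins (m0 a) (m0 b) → ℝ) : ∑ M, F M = F (M1 ha hb) + F (M2 ha hb) := by
  have : (univ : Finset (Margins (m0 a) (m0 b))) = {M1 ha hb, M2 ha hb} := by
    ext M
    simpa using M_cases ha hb M
  rw [this, Finset.sum_pair (M_ne ha hb)]

open Classical in
theorem P12' : bipChain (m0 a) (m0 b) (M1 ha hb) (M2 ha hb) = 2 / den a b := by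
  refine le_antisymm ?_ (chain_ge_of_bipAdj ha hb (adj12 ha hb))
  rw [bipChain_eq, if_neg (M_ne ha hb)]
  have h1 := Qb12_le ha hb
  have h2 : 2 / den a b = 1 / 2 * (4 / den a b) := by ring
  rw [h2]
  linarith only [h1]

open Classical in
theorem eigen0' : IsBipEigen (m0 a) (m0 b) (1 - 1 / ((a.choose 2 : ℝ) * (b.choose 2 : ℝ)))
    (ef' ha hb) := by
  have hne : Nonempty (Margins (m0 a) (m0 b)) := ⟨M1 ha hb⟩
  have hL := lazy_bip (r := m0 a) (c := m0 b) ha hb
  constructor
  · intro h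
    have := congrFun h (M1 ha hb)
    rw [ef'1] at this
    simp at this
  · intro G
    have h12 := P12' ha hb
    have h21 : bipChain (m0 a) (m0 b) (M2 ha hb) (M1 ha hb) = 2 / den a b := by
      rw [hL.Ps, h12]
    have s1 := hL.P1 (M1 ha hb)
    have s2 := hL.P1 (M2 ha hb)
    rw [sum_two' ha hb, h12] at s1
    rw [sum_two' ha hb, h21] at s2
    rw [← gap_eq]
    have e : 4 / den a b = 2 * (2 / den a b) := by ring
    rw [sum_two' ha hb, ef'1, ef'2]
    rcases M_cases ha hb G with rfl | rfl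
    · rw [h12, ef'1, e]; linarith only [s1]
    · rw [h21, ef'2, e]; linarith only [s2]

open Classical in
theorem pow_eigen' {r : Fin a → ℕ} {c : Fin b → ℕ} {l : ℝ} {f : Margins r c → ℝ}
    (hf : IsBipEigen r c l f) (t : ℕ)
    (G : Margins r c) : ∑ H, (bipChain r c ^ t) G H * f H = l ^ t * f G := by
  induction t generalizing G with
  | zero => simp [Matrix.one_apply]
  | succ t ih =>
    have e : ∀ H, (bipChain r c ^ (t + 1)) G H * f H =
        ∑ K, bipChain r c G K * ((bipChain r c ^ t) K H * f H) := by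
      intro H
      rw [pow_succ', Matrix.mul_apply, Finset.sum_mul]
      exact Finset.sum_congr rfl fun K _ => by ring
    simp_rw [e]
    rw [Finset.sum_comm]
    simp_rw [← Finset.mul_sum, ih]
    have e2 : ∀ K, bipChain r c G K * (l ^ t * f K) = l ^ t * (bipChain r c G K * f K) := by
      intro K; ring
    simp_rw [e2]
    rw [← Finset.mul_sum, hf.2 G]
    ring

include ha hb in
open Classical in
/-- the mixing time for the margins `m0` is at least `C(a,2) C(b,2) / 2` -/
theorem mix_lower' (t : ℕ) (h : BipMixedWithin (m0 a) (m0 b) (1 / 4) t) :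
    a.choose 2 * b.choose 2 ≤ 2 * t := by
  have hd := den_pos ha hb
  have hd4 := den_ge ha hb
  have h1 := h (M1 ha hb)
  have h2 := pow_eigen' (eigen0' ha hb) t (M1 ha hb)
  rw [ef'1, mul_one, ← gap_eq] at h2
  set N : ℝ := (Fintype.card (Margins (m0 a) (m0 b)) : ℝ) with hN
  have h3 : ∑ H, ((bipChain (m0 a) (m0 b) ^ t) (M1 ha hb) H - 1 / N) * ef' ha hb H =
      (1 - 4 / den a b) ^ t := by
    simp_rw [sub_mul]
    rw [Finset.sum_sub_distrib, h2, ← Finset.mul_sum, sum_two' ha hb (ef' ha hb), ef'1, ef'2]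
    ring
  have h4 : (1 - 4 / den a b) ^ t ≤
      ∑ H, |(bipChain (m0 a) (m0 b) ^ t) (M1 ha hb) H - 1 / N| := by
    rw [← h3]
    refine Finset.sum_le_sum fun H _ => ?_
    refine (le_abs_self _).trans (le_of_eq ?_)
    rw [abs_mul]
    have : |ef' ha hb H| = 1 := by
      unfold ef'
      split_ifs <;> simp
    rw [this, mul_one]
  have h5 : 1 + (t : ℝ) * (-(4 / den a b)) ≤ (1 + -(4 / den a b)) ^ t := by
    apply one_add_mul_le_pow
    have : 4 / den a b ≤ 1 := by
      rw [div_le_one hd]; exact hd4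
    linarith
  rw [← sub_eq_add_neg] at h5
  have h6 : (1 : ℝ) / 2 ≤ t * (4 / den a b) := by linarith only [h1, h4, h5]
  have h7 : (a.choose 2 : ℝ) * (b.choose 2 : ℝ) ≤ 2 * t := by
    have e : (t : ℝ) * (4 / den a b) = t * 4 / den a b := by ring
    rw [e, le_div_iff₀ hd, den_eq] at h6
    linarith only [h6]
  exact_mod_cast h7

end

end Vale.Agent.P335.H586
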