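import Vale.Agent.P335.H586.Gap

/-!
# P335: the spectral gap `1 / (6 C(n,4))` is attained for every `n ≥ 4`
-/

namespace Vale.Agent.P335.H586

open Finset Vale.Agent.P335

/-- the degree vector `2, 2, 1, 1, 0, ..., 0` -/
def d0 (n : ℕ) (v : Fin n) : ℕ := if v.val < 2 then 2 else if v.val < 4 then 1 else 0

section

variable {n : ℕ} (hn : 4 ≤ n)

/-- the vertex `k` -/
def vx (k : Fin 4) : Fin n := ⟨k.val, by omega⟩

theorem vx_inj {k l : Fin 4} : vx hn k = vx hn l ↔ k = l := by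
  unfold vx
  rw [Fin.mk.injEq]
  exact ⟨fun h => Fin.ext h, fun h => by rw [h]⟩

/-- the path `2 - 0 - 1 - 3` -/
def G1 : SimpleGraph (Fin n) :=
  SimpleGraph.fromEdgeSet {s(vx hn 0, vx hn 1), s(vx hn 0, vx hn 2), s(vx hn 1, vx hn 3)}

theorem G1_adj (u v : Fin n) : (G1 hn).Adj u v ↔
    (u = vx hn 0 ∧ v = vx hn 1) ∨ (u = vx hn 1 ∧ v = vx hn 0) ∨
    (u = vx hn 0 ∧ v = vx hn 2) ∨ (u = vx hn 2 ∧ v = vx hn 0) ∨
    (u = vx hn 1 ∧ v = vx hn 3) ∨ (u = vx hn 3 ∧ v = vx hn 1) := by
  unfold G1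
  rw [SimpleGraph.fromEdgeSet_adj]
  simp only [Set.mem_insert_iff, Set.mem_singleton_iff, Sym2.eq_iff]
  constructor
  · rintro ⟨h, _⟩
    tauto
  · intro h
    refine ⟨by tauto, ?_⟩
    rintro rfl
    rcases h with h | h | h | h | h | h <;>
    · have := h.1.symm.trans h.2
      rw [vx_inj] at this
      exact absurd this (by decide)

theorem vx_val (k : Fin 4) : (vx hn k).val = k.val := rfl

theorem eq_vx {v : Fin n} (h : v.val < 4) : ∃ k, v = vx hn k := ⟨⟨v.val, h⟩, Fin.ext rfl⟩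

theorem G1_deg : HasDegrees (d0 n) (G1 hn) := by
  intro v
  by_cases h : v.val < 4
  · obtain ⟨k, rfl⟩ := eq_vx hn h
    fin_cases k
    · have e : (G1 hn).neighborSet (vx hn 0) = {vx hn 1, vx hn 2} := by
        ext w
        rw [SimpleGraph.mem_neighborSet, G1_adj]
        simp only [vx_inj, Set.mem_insert_iff, Set.mem_singleton_iff]
        simp
      show ((G1 hn).neighborSet (vx hn 0)).ncard = d0 n (vx hn 0)
      rw [e, Set.ncard_pair (by rw [Ne, vx_inj]; decide)]
      rfl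
    · have e : (G1 hn).neighborSet (vx hn 1) = {vx hn 0, vx hn 3} := by
        ext w
        rw [SimpleGraph.mem_neighborSet, G1_adj]
        simp only [vx_inj, Set.mem_insert_iff, Set.mem_singleton_iff]
        simp
      show ((G1 hn).neighborSet (vx hn 1)).ncard = d0 n (vx hn 1)
      rw [e, Set.ncard_pair (by rw [Ne, vx_inj]; decide)]
      rfl
    · have e : (G1 hn).neighborSet (vx hn 2) = {vx hn 0} := by
        ext w
        rw [SimpleGraph.mem_neighborSet, G1_adj]
        simp only [vx_inj, Set.mem_insert_iff, Set.mem_singleton_iff]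
        simp
      show ((G1 hn).neighborSet (vx hn 2)).ncard = d0 n (vx hn 2)
      rw [e, Set.ncard_singleton]
      rfl
    · have e : (G1 hn).neighborSet (vx hn 3) = {vx hn 1} := by
        ext w
        rw [SimpleGraph.mem_neighborSet, G1_adj]
        simp only [vx_inj, Set.mem_insert_iff, Set.mem_singleton_iff]
        simp
      show ((G1 hn).neighborSet (vx hn 3)).ncard = d0 n (vx hn 3)
      rw [e, Set.ncard_singleton]
      rfl
  · have e : (G1 hn).neighborSet v = ∅ := by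
      ext w
      rw [SimpleGraph.mem_neighborSet, G1_adj]
      simp only [Set.mem_empty_iff_false, iff_false]
      rintro (h1 | h1 | h1 | h1 | h1 | h1) <;>
      · apply h
        rw [h1.1, vx_val]
        exact Fin.isLt _
    rw [e, Set.ncard_empty]
    unfold d0
    rw [if_neg (by omega), if_neg h]

/-- no edges outside the four vertices -/
theorem no_adj {G : SimpleGraph (Fin n)} (hG : HasDegrees (d0 n) G) {u v : Fin n}
    (h : ¬ u.val < 4) : ¬ G.Adj u v := by
  have h1 := hG u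
  unfold d0 at h1
  rw [if_neg (by omega), if_neg h] at h1
  have h2 : (G.neighborSet u) = ∅ := by
    rwa [Set.ncard_eq_zero (Set.toFinite _)] at h1
  intro h3
  have : v ∈ G.neighborSet u := h3
  rw [h2] at this
  exact this

open Classical in
theorem sum_adj {G : SimpleGraph (Fin n)} (hG : HasDegrees (d0 n) G) (v : Fin n) :
    ∑ k : Fin 4, (if G.Adj v (vx hn k) then 1 else 0) = d0 n v := by
  rw [← hG v, ← Finset.card_filter, Set.ncard_eq_toFinset_card']
  refine Finset.card_bij (fun k _ => vx hn k) ?_ ?_ ?_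
  · intro k hk
    simpa using hk
  · intro k _ l _ h
    exact (vx_inj hn).1 h
  · intro w hw
    have hw' : G.Adj v w := by simpa using hw
    have h4 : w.val < 4 := by
      by_contra hc
      exact no_adj hG hc hw'.symm
    obtain ⟨k, rfl⟩ := eq_vx hn h4
    exact ⟨k, by simpa using hw', rfl⟩

open Classical in
theorem key {K : SimpleGraph (Fin n)} (hK : HasDegrees (d0 n) K) :
    K.Adj (vx hn 0) (vx hn 1) ∧ ¬ K.Adj (vx hn 2) (vx hn 3) ∧
      (K.Adj (vx hn 0) (vx hn 3) ↔ ¬ K.Adj (vx hn 0) (vx hn 2)) ∧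
      (K.Adj (vx hn 1) (vx hn 2) ↔ ¬ K.Adj (vx hn 0) (vx hn 2)) ∧
      (K.Adj (vx hn 1) (vx hn 3) ↔ K.Adj (vx hn 0) (vx hn 2)) := by
  have e0 := sum_adj hn hK (vx hn 0)
  have e1 := sum_adj hn hK (vx hn 1)
  have e2 := sum_adj hn hK (vx hn 2)
  have e3 := sum_adj hn hK (vx hn 3)
  have f0 : d0 n (vx hn 0) = 2 := rfl
  have f1 : d0 n (vx hn 1) = 2 := rfl
  have f2 : d0 n (vx hn 2) = 1 := rfl
  have f3 : d0 n (vx hn 3) = 1 := rfl
  rw [f0, Fin.sum_univ_four] at e0
  rw [f1, Fin.sum_univ_four] at e1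
  rw [f2, Fin.sum_univ_four] at e2
  rw [f3, Fin.sum_univ_four] at e3
  simp only [K.irrefl, if_false] at e0 e1 e2 e3
  rw [K.adj_comm (vx hn 1) (vx hn 0)] at e1
  rw [K.adj_comm (vx hn 2) (vx hn 0), K.adj_comm (vx hn 2) (vx hn 1)] at e2
  rw [K.adj_comm (vx hn 3) (vx hn 0), K.adj_comm (vx hn 3) (vx hn 1),
    K.adj_comm (vx hn 3) (vx hn 2)] at e3
  generalize K.Adj (vx hn 0) (vx hn 1) = p01 at *
  generalize K.Adj (vx hn 0) (vx hn 2) = p02 at *
  generalize K.Adj (vx hn 0) (vx hn 3) = p03 at *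
  generalize K.Adj (vx hn 1) (vx hn 2) = p12 at *
  generalize K.Adj (vx hn 1) (vx hn 3) = p13 at *
  generalize K.Adj (vx hn 2) (vx hn 3) = p23 at *
  clear hK f0 f1 f2 f3
  have c : ∀ p : Prop, (if p then 1 else 0) ≤ 1 := fun p => by split_ifs <;> omega
  have c1 : ∀ p : Prop, (if p then 1 else 0) = 1 ↔ p := fun p => by split_ifs <;> simp_all
  have c0 : ∀ p : Prop, (if p then 1 else 0) = 0 ↔ ¬ p := fun p => by split_ifs <;> simp_all
  have b01 := c p01
  have b02 := c p02
  have b03 := c p03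
  have b12 := c p12
  have b13 := c p13
  have b23 := c p23
  refine ⟨(c1 p01).1 (by omega), (c0 p23).1 (by omega), ?_, ?_, ?_⟩
  · rw [← c1 p03, ← c0 p02]; omega
  · rw [← c1 p12, ← c0 p02]; omega
  · rw [← c1 p13, ← c1 p02]; omega

/-- a realization is determined by the status of the pair `0 2` -/
theorem determined {G H : SimpleGraph (Fin n)} (hG : HasDegrees (d0 n) G)
    (hH : HasDegrees (d0 n) H) (h : G.Adj (vx hn 0) (vx hn 2) ↔ H.Adj (vx hn 0) (vx hn 2)) :
    G = H := by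
  obtain ⟨g1, g2, g3, g4, g5⟩ := key hn hG
  obtain ⟨k1, k2, k3, k4, k5⟩ := key hn hH
  have m03 := g3.trans ((not_congr h).trans k3.symm)
  have m12 := g4.trans ((not_congr h).trans k4.symm)
  have m13 := g5.trans (h.trans k5.symm)
  have m01 : G.Adj (vx hn 0) (vx hn 1) ↔ H.Adj (vx hn 0) (vx hn 1) := ⟨fun _ => k1, fun _ => g1⟩
  have m23 : G.Adj (vx hn 2) (vx hn 3) ↔ H.Adj (vx hn 2) (vx hn 3) :=
    ⟨fun h1 => absurd h1 g2, fun h1 => absurd h1 k2⟩
  have main : ∀ k l : Fin 4, k < l →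
      (G.Adj (vx hn k) (vx hn l) ↔ H.Adj (vx hn k) (vx hn l)) := by
    intro k l hkl
    have hk : k = 0 ∧ l = 1 ∨ k = 0 ∧ l = 2 ∨ k = 0 ∧ l = 3 ∨ k = 1 ∧ l = 2 ∨ k = 1 ∧ l = 3 ∨
        k = 2 ∧ l = 3 := by
      revert k l; decide
    rcases hk with ⟨rfl, rfl⟩ | ⟨rfl, rfl⟩ | ⟨rfl, rfl⟩ | ⟨rfl, rfl⟩ | ⟨rfl, rfl⟩ | ⟨rfl, rfl⟩
    · exact m01
    · exact h
    · exact m03
    · exact m12
    · exact m13
    · exact m23
  ext u v
  by_cases hu : u.val < 4
  swap
  · exact ⟨fun h1 => absurd h1 (no_adj hG hu), fun h1 => absurd h1 (no_adj hH hu)⟩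
  by_cases hv : v.val < 4
  swap
  · exact ⟨fun h1 => absurd h1.symm (no_adj hG hv), fun h1 => absurd h1.symm (no_adj hH hv)⟩
  obtain ⟨k, rfl⟩ := eq_vx hn hu
  obtain ⟨l, rfl⟩ := eq_vx hn hv
  rcases lt_trichotomy k l with hkl | hkl | hkl
  · exact main k l hkl
  · subst hkl
    exact ⟨fun h1 => absurd h1 (G.irrefl), fun h1 => absurd h1 (H.irrefl)⟩
  · rw [G.adj_comm, H.adj_comm]
    exact main l k hkl

/-- the path `3 - 0 - 1 - 2` -/
def G2 : SimpleGraph (Fin n) :=
  SimpleGraph.fromEdgeSet (((G1 hn).edgeSet \ {s(vx hn 0, vx hn 2), s(vx hn 3, vx hn 1)}) ∪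
    {s(vx hn 0, vx hn 3), s(vx hn 2, vx hn 1)})

theorem ne_vx {k l : Fin 4} (h : k ≠ l) : vx hn k ≠ vx hn l := fun h1 => h ((vx_inj hn).1 h1)

theorem switch12 : SwitchAdj (G1 hn) (G2 hn) := by
  refine ⟨vx hn 0, vx hn 2, vx hn 3, vx hn 1, ne_vx hn (by decide), ne_vx hn (by decide),
    ne_vx hn (by decide), ne_vx hn (by decide), ne_vx hn (by decide), ne_vx hn (by decide),
    ?_, ?_, ?_, ?_, rfl⟩
  all_goals
    rw [G1_adj]
    simp only [vx_inj]
    decide

theorem G2_deg : HasDegrees (d0 n) (G2 hn) := by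
  classical
  obtain ⟨a, b, c, e, hab, hac, hae, hbc, hbe, hce, h1, h2, h3, h4, h5⟩ := switch12 hn
  have p1 : ({a, b, c, e} : Finset (Fin n)) = {a, c, b, e} := by
    ext x; simp only [Finset.mem_insert, Finset.mem_singleton]; (clear * -; tauto)
  have hF := PM_pair_mem hab hac hae hbc hbe hce
  have hF' := PM_pair_mem hac hab hae hbc.symm hce hbe
  rw [← p1] at hF'
  have hmove : switchMove (G1 hn) {s(a, b), s(c, e)} {s(a, c), s(b, e)} = G2 hn := by
    unfold switchMove
    rw [if_pos, h5]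
    · push_cast
      rfl
    · constructor
      · intro f hf
        simp only [Finset.mem_insert, Finset.mem_singleton] at hf
        rcases hf with rfl | rfl
        · exact h1
        · exact h2
      · intro f hf
        simp only [Finset.mem_insert, Finset.mem_singleton] at hf
        rcases hf with rfl | rfl
        · exact h3
        · exact h4
  rw [← hmove]
  exact switchMove_hasDegrees (G1_deg hn) hF hF'

/-- the two realizations -/
def R1 : Realization (d0 n) := ⟨G1 hn, G1_deg hn⟩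
def R2 : Realization (d0 n) := ⟨G2 hn, G2_deg hn⟩

theorem R1_adj : (R1 hn).1.Adj (vx hn 0) (vx hn 2) := by
  show (G1 hn).Adj _ _
  rw [G1_adj]
  simp only [vx_inj]
  decide

theorem R2_adj : ¬ (R2 hn).1.Adj (vx hn 0) (vx hn 2) := by
  show ¬ (G2 hn).Adj _ _
  unfold G2
  rw [SimpleGraph.fromEdgeSet_adj]
  simp only [Set.mem_union, Set.mem_sdiff, Set.mem_insert_iff, Set.mem_singleton_iff, Sym2.eq_iff,
    vx_inj]
  rintro ⟨h | h, _⟩
  · exact h.2 (Or.inl (by decide))
  · revert h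
    decide

theorem R_ne : R1 hn ≠ R2 hn := by
  intro h
  have := R1_adj hn
  rw [h] at this
  exact R2_adj hn this

theorem R_cases (G : Realization (d0 n)) : G = R1 hn ∨ G = R2 hn := by
  by_cases h : G.1.Adj (vx hn 0) (vx hn 2)
  · left
    exact Subtype.ext (determined hn G.2 (R1 hn).2 ⟨fun _ => R1_adj hn, fun _ => h⟩)
  · right
    exact Subtype.ext (determined hn G.2 (R2 hn).2
      ⟨fun h1 => absurd h1 h, fun h1 => absurd h1 (R2_adj hn)⟩)

open Classical in
/-- the eigenfunction -/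
noncomputable def ef (G : Realization (d0 n)) : ℝ := if G = R1 hn then 1 else -1

theorem ef1 : ef hn (R1 hn) = 1 := by unfold ef; simp

theorem ef2 : ef hn (R2 hn) = -1 := by unfold ef; simp [(R_ne hn).symm]

open Classical in
theorem sum_two (F : Realization (d0 n) → ℝ) : ∑ G, F G = F (R1 hn) + F (R2 hn) := by
  have : (univ : Finset (Realization (d0 n))) = {R1 hn, R2 hn} := by
    ext G
    simpa using R_cases hn G
  rw [this, Finset.sum_pair (R_ne hn)]

open Classical in
theorem P12 : switchChain (d0 n) (R1 hn) (R2 hn) = 1 / (12 * (n.choose 4 : ℝ)) := by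
  have hC : (0 : ℝ) < (n.choose 4 : ℝ) := by exact_mod_cast Nat.choose_pos hn
  refine le_antisymm ?_ (chain_ge_of_switchAdj hn _ _ _ (switch12 hn))
  rw [switchChain_eq, if_neg (R_ne hn)]
  have h1 := Qmat_le hn (d0 n) (R_ne hn)
  have h2 : 1 / (12 * (n.choose 4 : ℝ)) = 1 / 2 * (1 / (6 * (n.choose 4 : ℝ))) := by
    field_simp; norm_num
  rw [h2]
  linarith only [h1]

open Classical in
theorem eigen0 : IsEigen (d0 n) (1 - 1 / (6 * (n.choose 4 : ℝ))) (ef hn) := by
  have hC : (0 : ℝ) < (n.choose 4 : ℝ) := by exact_mod_cast Nat.choose_pos hn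
  have hne : Nonempty (Realization (d0 n)) := ⟨R1 hn⟩
  have hL := lazy_switch hn (d0 n)
  constructor
  · intro h
    have := congrFun h (R1 hn)
    rw [ef1] at this
    simp at this
  · intro G
    have h12 := P12 hn
    have h21 : switchChain (d0 n) (R2 hn) (R1 hn) = 1 / (12 * (n.choose 4 : ℝ)) := by
      rw [hL.Ps, h12]
    have s1 := hL.P1 (R1 hn)
    have s2 := hL.P1 (R2 hn)
    rw [sum_two hn, h12] at s1
    rw [sum_two hn, h21] at s2
    have e : 1 / (6 * (n.choose 4 : ℝ)) = 2 * (1 / (12 * (n.choose 4 : ℝ))) := by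
      field_simp; norm_num
    rw [sum_two hn, ef1, ef2]
    rcases R_cases hn G with rfl | rfl
    · rw [h12, ef1, e]; linarith only [s1]
    · rw [h21, ef2, e]; linarith only [s2]

open Classical in
theorem pow_eigen {d : Fin n → ℕ} {l : ℝ} {f : Realization d → ℝ} (hf : IsEigen d l f) (t : ℕ)
    (G : Realization d) : ∑ H, (switchChain d ^ t) G H * f H = l ^ t * f G := by
  induction t generalizing G with
  | zero => simp [Matrix.one_apply]
  | succ t ih =>
    have e : ∀ H, (switchChain d ^ (t + 1)) G H * f H =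
        ∑ K, switchChain d G K * ((switchChain d ^ t) K H * f H) := by
      intro H
      rw [pow_succ', Matrix.mul_apply, Finset.sum_mul]
      exact Finset.sum_congr rfl fun K _ => by ring
    simp_rw [e]
    rw [Finset.sum_comm]
    simp_rw [← Finset.mul_sum, ih]
    have e2 : ∀ K, switchChain d G K * (l ^ t * f K) = l ^ t * (switchChain d G K * f K) := by
      intro K; ring
    simp_rw [e2]
    rw [← Finset.mul_sum, hf.2 G]
    ring

include hn in
open Classical in
/-- the mixing time of `d0` is at least `3 C(n,4)` -/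
theorem mix_lower (t : ℕ) (h : MixedBy (d0 n) t) : 3 * n.choose 4 ≤ t := by
  have hC : (0 : ℝ) < (n.choose 4 : ℝ) := by exact_mod_cast Nat.choose_pos hn
  have hC1 : (1 : ℝ) ≤ (n.choose 4 : ℝ) := by exact_mod_cast Nat.choose_pos hn
  have h1 := h (R1 hn)
  have h2 := pow_eigen (eigen0 hn) t (R1 hn)
  rw [ef1, mul_one] at h2
  set N : ℝ := (Fintype.card (Realization (d0 n)) : ℝ) with hN
  have h3 : ∑ H, ((switchChain (d0 n) ^ t) (R1 hn) H - 1 / N) * ef hn H =
      (1 - 1 / (6 * (n.choose 4 : ℝ))) ^ t := by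
    simp_rw [sub_mul]
    rw [Finset.sum_sub_distrib, h2, ← Finset.mul_sum, sum_two hn (ef hn), ef1, ef2]
    ring
  have h4 : (1 - 1 / (6 * (n.choose 4 : ℝ))) ^ t ≤
      ∑ H, |(switchChain (d0 n) ^ t) (R1 hn) H - 1 / N| := by
    rw [← h3]
    refine Finset.sum_le_sum fun H _ => ?_
    refine (le_abs_self _).trans (le_of_eq ?_)
    rw [abs_mul]
    have : |ef hn H| = 1 := by
      unfold ef
      split_ifs <;> simp
    rw [this, mul_one]
  have h5 : 1 + (t : ℝ) * (-(1 / (6 * (n.choose 4 : ℝ)))) ≤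
      (1 + -(1 / (6 * (n.choose 4 : ℝ)))) ^ t := by
    apply one_add_mul_le_pow
    have : 1 / (6 * (n.choose 4 : ℝ)) ≤ 1 := by
      rw [div_le_one (by positivity)]; linarith
    linarith
  rw [← sub_eq_add_neg] at h5
  have h6 : (1 : ℝ) / 2 ≤ t * (1 / (6 * (n.choose 4 : ℝ))) := by linarith only [h1, h4, h5]
  have h7 : 3 * (n.choose 4 : ℝ) ≤ t := by
    have e : (t : ℝ) * (1 / (6 * (n.choose 4 : ℝ))) = t / (6 * (n.choose 4 : ℝ)) := by ring
    rw [e, le_div_iff₀ (by positivity)] at h6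
    linarith only [h6]
  exact_mod_cast h7

end

end Vale.Agent.P335.H586
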