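import Vale.Agent.P335.H586.Bip

/-!
# P335: spectral gap and mixing of the bipartite switch chain
-/

namespace Vale.Agent.P335.H586

open Finset Vale.Agent.P335

section Move

variable {a b : ℕ}

theorem bipMove_invol (M : Fin a → Fin b → Bool) (i i' : Fin a) (j j' : Fin b) :
    bipMove (bipMove M i i' j j') i i' j j' = M := by
  by_cases h : M i j = M i' j' ∧ M i j' = M i' j ∧ M i j ≠ M i j'
  · obtain ⟨h1, h2, h3⟩ := h
    have e : bipMove M i i' j j' =
        fun k l => if (k = i ∨ k = i') ∧ (l = j ∨ l = j') then !(M k l) else M k l := by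
      unfold bipMove; rw [if_pos ⟨h1, h2, h3⟩]
    rw [e]
    unfold bipMove
    rw [if_pos]
    · funext k l
      by_cases hkl : (k = i ∨ k = i') ∧ (l = j ∨ l = j')
      · simp [hkl]
      · simp [hkl]
    · refine ⟨?_, ?_, ?_⟩
      · simp [h1]
      · simp [h2]
      · simpa using h3
  · have e : bipMove M i i' j j' = M := by unfold bipMove; rw [if_neg h]
    rw [e, e]

theorem bipMove_swap1 (M : Fin a → Fin b → Bool) (i i' : Fin a) (j j' : Fin b) :
    bipMove M i' i j j' = bipMove M i i' j j' := by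
  have h : (M i' j = M i j' ∧ M i' j' = M i j ∧ M i' j ≠ M i' j') ↔
      (M i j = M i' j' ∧ M i j' = M i' j ∧ M i j ≠ M i j') := by
    constructor
    · rintro ⟨h1, h2, h3⟩
      exact ⟨h2.symm, h1.symm, fun h => h3 (by rw [h1, h2, h])⟩
    · rintro ⟨h1, h2, h3⟩
      exact ⟨h2.symm, h1.symm, fun h => h3 (by rw [h1, h2, h])⟩
  unfold bipMove
  by_cases hc : M i j = M i' j' ∧ M i j' = M i' j ∧ M i j ≠ M i j'
  · rw [if_pos hc, if_pos (h.2 hc)]
    funext k l
    simp only [or_comm]
  · rw [if_neg hc, if_neg (fun hc' => hc (h.1 hc'))]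

theorem bipMove_swap2 (M : Fin a → Fin b → Bool) (i i' : Fin a) (j j' : Fin b) :
    bipMove M i i' j' j = bipMove M i i' j j' := by
  have h : (M i j' = M i' j ∧ M i j = M i' j' ∧ M i j' ≠ M i j) ↔
      (M i j = M i' j' ∧ M i j' = M i' j ∧ M i j ≠ M i j') :=
    ⟨fun h => ⟨h.2.1, h.1, h.2.2.symm⟩, fun h => ⟨h.2.1, h.1, h.2.2.symm⟩⟩
  unfold bipMove
  by_cases hc : M i j = M i' j' ∧ M i j' = M i' j ∧ M i j ≠ M i j'
  · rw [if_pos hc, if_pos (h.2 hc)]
    funext k l
    simp only [or_comm]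
  · rw [if_neg hc, if_neg (fun hc' => hc (h.1 hc'))]

theorem bool_not_of_ne {x y : Bool} (h : x ≠ y) : (!x) = y := by
  cases x <;> cases y <;> simp_all

theorem bipMove_row (M : Fin a → Fin b → Bool) {i i' : Fin a} {j j' : Fin b} (hj : j ≠ j')
    (k : Fin a) : ∃ σ : Equiv.Perm (Fin b), ∀ l, bipMove M i i' j j' k l = M k (σ l) := by
  by_cases h : M i j = M i' j' ∧ M i j' = M i' j ∧ M i j ≠ M i j'
  swap
  · exact ⟨Equiv.refl _, fun l => by unfold bipMove; rw [if_neg h]; rfl⟩
  obtain ⟨h1, h2, h3⟩ := h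
  have e : bipMove M i i' j j' =
      fun k l => if (k = i ∨ k = i') ∧ (l = j ∨ l = j') then !(M k l) else M k l := by
    unfold bipMove; rw [if_pos ⟨h1, h2, h3⟩]
  by_cases hk : k = i ∨ k = i'
  · have hkk : M k j ≠ M k j' := by
      rcases hk with rfl | rfl
      · exact h3
      · intro h; exact h3 (by rw [h1, h2, h])
    refine ⟨Equiv.swap j j', fun l => ?_⟩
    rw [e]
    simp only
    by_cases hl : l = j
    · subst hl
      rw [if_pos ⟨hk, Or.inl rfl⟩, Equiv.swap_apply_left]
      exact bool_not_of_ne hkk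
    · by_cases hl' : l = j'
      · subst hl'
        rw [if_pos ⟨hk, Or.inr rfl⟩, Equiv.swap_apply_right]
        exact bool_not_of_ne hkk.symm
      · rw [if_neg (by rintro ⟨_, h | h⟩; exacts [hl h, hl' h]),
          Equiv.swap_apply_of_ne_of_ne hl hl']
  · refine ⟨Equiv.refl _, fun l => ?_⟩
    rw [e]
    simp only
    rw [if_neg (fun h => hk h.1)]
    rfl

theorem bipMove_col (M : Fin a → Fin b → Bool) {i i' : Fin a} {j j' : Fin b} (hi : i ≠ i')
    (l : Fin b) : ∃ σ : Equiv.Perm (Fin a), ∀ k, bipMove M i i' j j' k l = M (σ k) l := by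
  by_cases h : M i j = M i' j' ∧ M i j' = M i' j ∧ M i j ≠ M i j'
  swap
  · exact ⟨Equiv.refl _, fun l => by unfold bipMove; rw [if_neg h]; rfl⟩
  obtain ⟨h1, h2, h3⟩ := h
  have e : bipMove M i i' j j' =
      fun k l => if (k = i ∨ k = i') ∧ (l = j ∨ l = j') then !(M k l) else M k l := by
    unfold bipMove; rw [if_pos ⟨h1, h2, h3⟩]
  by_cases hl : l = j ∨ l = j'
  · have hll : M i l ≠ M i' l := by
      rcases hl with rfl | rfl
      · rw [← h2]; exact h3
      · rw [← h1]; exact h3.symm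
    refine ⟨Equiv.swap i i', fun k => ?_⟩
    rw [e]
    simp only
    by_cases hk : k = i
    · subst hk
      rw [if_pos ⟨Or.inl rfl, hl⟩, Equiv.swap_apply_left]
      exact bool_not_of_ne hll
    · by_cases hk' : k = i'
      · subst hk'
        rw [if_pos ⟨Or.inr rfl, hl⟩, Equiv.swap_apply_right]
        exact bool_not_of_ne hll.symm
      · rw [if_neg (by rintro ⟨h | h, _⟩; exacts [hk h, hk' h]),
          Equiv.swap_apply_of_ne_of_ne hk hk']
  · refine ⟨Equiv.refl _, fun k => ?_⟩
    rw [e]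
    simp only
    rw [if_neg (fun h => hl h.2)]
    rfl

theorem card_perm {α : Type*} [Fintype α] [DecidableEq α] (f g : α → Bool) (σ : Equiv.Perm α)
    (h : ∀ x, f x = g (σ x)) :
    (univ.filter fun x => f x = true).card = (univ.filter fun x => g x = true).card := by
  refine Finset.card_bij (fun x _ => σ x) ?_ ?_ ?_
  · intro x hx
    simp only [Finset.mem_filter, Finset.mem_univ, true_and] at hx ⊢
    rw [← h x, hx]
  · intro x _ y _ hxy
    exact σ.injective hxy
  · intro y hy
    simp only [Finset.mem_filter, Finset.mem_univ, true_and] at hy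
    refine ⟨σ.symm y, ?_, by simp⟩
    simp only [Finset.mem_filter, Finset.mem_univ, true_and]
    rw [h, Equiv.apply_symm_apply, hy]

variable {r : Fin a → ℕ} {c : Fin b → ℕ}

/-- the move on the state space -/
def mv (M : Margins r c) (p : Fin a × Fin a) (q : Fin b × Fin b) (hp : p.1 ≠ p.2)
    (hq : q.1 ≠ q.2) : Margins r c :=
  ⟨bipMove M.1 p.1 p.2 q.1 q.2, by
    constructor
    · intro i
      obtain ⟨σ, hσ⟩ := bipMove_row M.1 (i := p.1) (i' := p.2) hq i
      rw [card_perm _ _ σ hσ, M.2.1 i]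
    · intro j
      obtain ⟨σ, hσ⟩ := bipMove_col M.1 (j := q.1) (j' := q.2) hp j
      rw [card_perm (fun i => bipMove M.1 p.1 p.2 q.1 q.2 i j) (fun i => M.1 i j) σ hσ, M.2.2 j]⟩

end Move

section Chain

variable {a b : ℕ} {r : Fin a → ℕ} {c : Fin b → ℕ}

open Classical in
/-- the non-lazy part -/
noncomputable def Qb (r : Fin a → ℕ) (c : Fin b → ℕ) (M N : Margins r c) : ℝ :=
  ∑ p ∈ (univ : Finset (Fin a)).offDiag, ∑ q ∈ (univ : Finset (Fin b)).offDiag,
      (1 / ((a * (a - 1) : ℝ) * (b * (b - 1) : ℝ))) *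
        (if bipMove M.1 p.1 p.2 q.1 q.2 = N.1 then 1 else 0)

/-- the denominator -/
noncomputable def den (a b : ℕ) : ℝ := (a * (a - 1) : ℝ) * (b * (b - 1) : ℝ)

theorem den_pos (ha : 2 ≤ a) (hb : 2 ≤ b) : 0 < den a b := by
  have h1 : (2 : ℝ) ≤ a := by exact_mod_cast ha
  have h2 : (2 : ℝ) ≤ b := by exact_mod_cast hb
  unfold den
  have h3 : (0 : ℝ) < a * (a - 1) := by nlinarith
  have h4 : (0 : ℝ) < b * (b - 1) := by nlinarith
  positivity

theorem den_ge (ha : 2 ≤ a) (hb : 2 ≤ b) : 4 ≤ den a b := by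
  have h1 : (2 : ℝ) ≤ a := by exact_mod_cast ha
  have h2 : (2 : ℝ) ≤ b := by exact_mod_cast hb
  unfold den
  have h3 : (2 : ℝ) ≤ a * (a - 1) := by nlinarith
  have h4 : (2 : ℝ) ≤ b * (b - 1) := by nlinarith
  nlinarith

theorem den_eq : den a b = 4 * ((a.choose 2 : ℝ) * (b.choose 2 : ℝ)) := by
  unfold den
  rw [Nat.cast_choose_two, Nat.cast_choose_two]
  ring

open Classical in
theorem bipChain_eq (M N : Margins r c) :
    bipChain r c M N = (1 / 2) * (if M = N then 1 else 0) + (1 / 2) * Qb r c M N := rfl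

theorem Qb_nonneg (ha : 2 ≤ a) (hb : 2 ≤ b) (M N : Margins r c) : 0 ≤ Qb r c M N := by
  classical
  unfold Qb
  have h := den_pos ha hb
  unfold den at h
  refine Finset.sum_nonneg fun p _ => Finset.sum_nonneg fun q _ => mul_nonneg (by positivity) ?_
  split_ifs <;> norm_num

theorem Qb_symm (M N : Margins r c) : Qb r c M N = Qb r c N M := by
  classical
  unfold Qb
  refine Finset.sum_congr rfl fun p _ => Finset.sum_congr rfl fun q _ => ?_
  congr 1
  refine if_congr ?_ rfl rfl
  constructor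
  · intro h; rw [← h, bipMove_invol]
  · intro h; rw [← h, bipMove_invol]

open Classical in
theorem Qb_row (ha : 2 ≤ a) (hb : 2 ≤ b) (M : Margins r c) : ∑ N, Qb r c M N = 1 := by
  have hd := den_pos ha hb
  unfold Qb
  rw [Finset.sum_comm]
  have h1 : ∀ p ∈ (univ : Finset (Fin a)).offDiag,
      ∑ N : Margins r c, ∑ q ∈ (univ : Finset (Fin b)).offDiag,
      (1 / ((a * (a - 1) : ℝ) * (b * (b - 1) : ℝ))) *
        (if bipMove M.1 p.1 p.2 q.1 q.2 = N.1 then (1 : ℝ) else 0) =
      (b * (b - 1)) * (1 / den a b) := by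
    intro p hp
    rw [Finset.sum_comm]
    have h2 : ∀ q ∈ (univ : Finset (Fin b)).offDiag, ∑ N : Margins r c,
        (1 / ((a * (a - 1) : ℝ) * (b * (b - 1) : ℝ))) *
        (if bipMove M.1 p.1 p.2 q.1 q.2 = N.1 then (1 : ℝ) else 0) = 1 / den a b := by
      intro q hq
      rw [Finset.mem_offDiag] at hp hq
      rw [← Finset.mul_sum]
      have : ∀ N : Margins r c, (if bipMove M.1 p.1 p.2 q.1 q.2 = N.1 then (1 : ℝ) else 0)
          = if mv M p q hp.2.2 hq.2.2 = N then 1 else 0 := by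
        intro N
        refine if_congr ?_ rfl rfl
        rw [Subtype.ext_iff]
        rfl
      simp_rw [this]
      rw [Finset.sum_ite_eq, if_pos (Finset.mem_univ _), mul_one]
      rfl
    rw [Finset.sum_congr rfl h2, Finset.sum_const, Finset.offDiag_card, Finset.card_univ,
      Fintype.card_fin, nsmul_eq_mul, Nat.cast_sub (Nat.le_mul_self b)]
    push_cast
    ring
  rw [Finset.sum_congr rfl h1, Finset.sum_const, Finset.offDiag_card, Finset.card_univ,
    Fintype.card_fin, nsmul_eq_mul, Nat.cast_sub (Nat.le_mul_self a)]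
  push_cast
  have e : ((a : ℝ) * a - a) * ((b : ℝ) * (b - 1) * (1 / den a b)) = den a b * (1 / den a b) := by
    unfold den; ring
  rw [e, mul_one_div_cancel hd.ne']

theorem chain_ge_of_bipAdj (ha : 2 ≤ a) (hb : 2 ≤ b) {M N : Margins r c} (h : BipAdj M.1 N.1) :
    2 / den a b ≤ bipChain r c M N := by
  classical
  have hd := den_pos ha hb
  obtain ⟨i, i', j, j', hi, hj, -, -, -, -, hN⟩ := h
  have hQ : 4 / den a b ≤ Qb r c M N := by
    unfold Qb
    have hnn : ∀ p q, (0 : ℝ) ≤ (1 / ((a * (a - 1) : ℝ) * (b * (b - 1) : ℝ))) *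
        (if bipMove M.1 (p : Fin a × Fin a).1 p.2 (q : Fin b × Fin b).1 q.2 = N.1
          then 1 else 0) := by
      intro p q
      refine mul_nonneg ?_ (by split_ifs <;> norm_num)
      unfold den at hd
      positivity
    have s1 : ({(i, i'), (i', i)} : Finset (Fin a × Fin a)) ⊆ (univ : Finset (Fin a)).offDiag := by
      intro p hp
      simp only [Finset.mem_insert, Finset.mem_singleton] at hp
      rw [Finset.mem_offDiag]
      rcases hp with rfl | rfl
      · exact ⟨Finset.mem_univ _, Finset.mem_univ _, hi⟩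
      · exact ⟨Finset.mem_univ _, Finset.mem_univ _, hi.symm⟩
    have s2 : ({(j, j'), (j', j)} : Finset (Fin b × Fin b)) ⊆ (univ : Finset (Fin b)).offDiag := by
      intro p hp
      simp only [Finset.mem_insert, Finset.mem_singleton] at hp
      rw [Finset.mem_offDiag]
      rcases hp with rfl | rfl
      · exact ⟨Finset.mem_univ _, Finset.mem_univ _, hj⟩
      · exact ⟨Finset.mem_univ _, Finset.mem_univ _, hj.symm⟩
    refine le_trans ?_ (Finset.sum_le_sum_of_subset_of_nonneg s1 fun p _ _ =>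
      Finset.sum_nonneg fun q _ => hnn p q)
    refine le_trans ?_ (Finset.sum_le_sum fun p _ => Finset.sum_le_sum_of_subset_of_nonneg s2
      fun q _ _ => hnn p q)
    have ne1 : ((i, i') : Fin a × Fin a) ≠ (i', i) := fun h => hi (Prod.ext_iff.1 h).1
    have ne2 : ((j, j') : Fin b × Fin b) ≠ (j', j) := fun h => hj (Prod.ext_iff.1 h).1
    rw [Finset.sum_pair ne1, Finset.sum_pair ne2, Finset.sum_pair ne2]
    simp only
    rw [bipMove_swap1 M.1 i i' j j', bipMove_swap2 M.1 i i' j j',
      bipMove_swap1 M.1 i i' j' j, bipMove_swap2 M.1 i i' j j', if_pos hN.symm]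
    apply le_of_eq
    unfold den
    ring
  rw [bipChain_eq]
  have h7 : (0 : ℝ) ≤ (1 / 2) * (if M = N then 1 else 0) := by split_ifs <;> norm_num
  have e : 2 / den a b = (1 / 2) * (4 / den a b) := by ring
  rw [e]
  linarith only [hQ, h7]

open Classical in
/-- Poincaré inequality for the bipartite switch graph -/
theorem bip_poincare [Nonempty (Margins r c)] (f : Margins r c → ℝ) :
    ∑ M, ∑ N, (f M - f N) ^ 2 ≤ 1 / 2 * (Fintype.card (Margins r c) : ℝ) *
      ∑ M : Margins r c, ∑ N : Margins r c, (if BipAdj M.1 N.1 then (f M - f N) ^ 2 else 0) := by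
  set e : Margins r c ≃ Realization (sd r c) := Equiv.ofBijective (PhiF r c) ⟨Phi_inj, Phi_surj⟩
    with he
  have h := poincare_half (sd r c) (fun G => f (e.symm G))
  have h1 : ∑ G : Realization (sd r c), ∑ H : Realization (sd r c),
      (f (e.symm G) - f (e.symm H)) ^ 2 = ∑ M, ∑ N, (f M - f N) ^ 2 := by
    rw [← e.sum_comp]
    refine Finset.sum_congr rfl fun M _ => ?_
    rw [← e.sum_comp]
    refine Finset.sum_congr rfl fun N _ => ?_
    rw [e.symm_apply_apply, e.symm_apply_apply]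
  have h2 : ∑ G : Realization (sd r c), ∑ H : Realization (sd r c),
      (if SwitchAdj G.1 H.1 then (f (e.symm G) - f (e.symm H)) ^ 2 else 0) ≤
      ∑ M : Margins r c, ∑ N : Margins r c, (if BipAdj M.1 N.1 then (f M - f N) ^ 2 else 0) := by
    rw [← e.sum_comp]
    refine Finset.sum_le_sum fun M _ => ?_
    rw [← e.sum_comp]
    refine Finset.sum_le_sum fun N _ => ?_
    rw [e.symm_apply_apply, e.symm_apply_apply]
    by_cases hs : SwitchAdj (e M).1 (e N).1
    · have hs' : BipAdj M.1 N.1 := bipAdj_of_switch hs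
      rw [if_pos hs, if_pos hs']
    · rw [if_neg hs]
      split_ifs
      · positivity
      · exact le_rfl
  rw [h1, ← Fintype.card_congr e] at h
  refine h.trans ?_
  exact mul_le_mul_of_nonneg_left h2 (by positivity)

open Classical in
/-- The bipartite switch chain has spectral gap `1 / (C(a,2) C(b,2))`. -/
theorem lazy_bip (ha : 2 ≤ a) (hb : 2 ≤ b) [Nonempty (Margins r c)] :
    Lazy (Qb r c) (bipChain r c) (4 / den a b) := by
  have hd := den_pos ha hb
  refine ⟨Qb_nonneg ha hb, Qb_symm, Qb_row ha hb, bipChain_eq, by positivity, ?_, ?_⟩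
  · rw [div_le_one hd]
    exact den_ge ha hb
  · intro f hf
    have hN : (0 : ℝ) < Fintype.card (Margins r c) := by exact_mod_cast Fintype.card_pos
    have h1 := bip_poincare f
    have h2 : ∑ G : Margins r c, ∑ H : Margins r c, (f G - f H) ^ 2
        = 2 * (Fintype.card (Margins r c) : ℝ) * ∑ x, f x ^ 2 := by
      have e : ∀ G H : Margins r c, (f G - f H) ^ 2 = f G ^ 2 + f H ^ 2 - 2 * (f G * f H) := by
        intro G H; ring
      simp_rw [e]
      simp only [Finset.sum_add_distrib, Finset.sum_sub_distrib, ← Finset.mul_sum, hf,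
        Finset.sum_const, Finset.card_univ, nsmul_eq_mul, mul_zero, Finset.sum_const_zero]
      ring
    rw [h2] at h1
    have h3 : ∑ G : Margins r c, ∑ H : Margins r c,
        (if BipAdj G.1 H.1 then (f G - f H) ^ 2 else 0) ≤
        den a b / 2 * ∑ x, ∑ y, (bipChain r c x y * (f x - f y) ^ 2) := by
      rw [Finset.mul_sum]
      refine Finset.sum_le_sum fun G _ => ?_
      rw [Finset.mul_sum]
      refine Finset.sum_le_sum fun H _ => ?_
      have hnn : 0 ≤ bipChain r c G H := by
        rw [bipChain_eq]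
        have := Qb_nonneg ha hb G H
        have h7 : (0 : ℝ) ≤ (1 / 2) * (if G = H then 1 else 0) := by split_ifs <;> norm_num
        linarith
      split_ifs with hsw
      · have h4 := chain_ge_of_bipAdj ha hb hsw
        have h5 : 1 ≤ den a b / 2 * bipChain r c G H := by
          rw [div_le_iff₀ hd] at h4
          linarith only [h4]
        calc (f G - f H) ^ 2 = 1 * (f G - f H) ^ 2 := by ring
          _ ≤ (den a b / 2 * bipChain r c G H) * (f G - f H) ^ 2 :=
              mul_le_mul_of_nonneg_right h5 (sq_nonneg _)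
          _ = _ := by ring
      · exact mul_nonneg (by positivity) (mul_nonneg hnn (sq_nonneg _))
    have h6 : 2 * ∑ x, f x ^ 2 ≤ 1 / 2 * (den a b / 2 *
        ∑ x, ∑ y, (bipChain r c x y * (f x - f y) ^ 2)) := by
      have h7 : (Fintype.card (Margins r c) : ℝ) * (2 * ∑ x, f x ^ 2) ≤
          (Fintype.card (Margins r c) : ℝ) * (1 / 2 * ∑ G : Margins r c, ∑ H : Margins r c,
            (if BipAdj G.1 H.1 then (f G - f H) ^ 2 else 0)) := by
        linarith only [h1]
      have h8 := le_of_mul_le_mul_left h7 hN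
      exact h8.trans (mul_le_mul_of_nonneg_left h3 (by norm_num))
    simp_rw [← Finset.mul_sum]
    rw [div_mul_eq_mul_div, div_le_iff₀ hd]
    linarith only [h6]

theorem gap_eq : 4 / den a b = 1 / ((a.choose 2 : ℝ) * (b.choose 2 : ℝ)) := by
  rw [den_eq, div_mul_eq_div_div]
  norm_num

open Classical in
/-- **spectral gap, bipartite** -/
theorem bip_eigen (ha : 2 ≤ a) (hb : 2 ≤ b) (r : Fin a → ℕ) (c : Fin b → ℕ) (l : ℝ)
    (f : Margins r c → ℝ) (hf : IsBipEigen r c l f) (hne : ∃ M N, f M ≠ f N) :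
    0 ≤ l ∧ l ≤ 1 - 1 / ((a.choose 2 : ℝ) * (b.choose 2 : ℝ)) := by
  obtain ⟨M, _⟩ := id hne
  have : Nonempty (Margins r c) := ⟨M⟩
  rw [← gap_eq]
  exact (lazy_bip ha hb).eigen hf.2 hne

open Classical in
/-- **mixing to every accuracy, bipartite** -/
theorem bip_mixing (ha : 2 ≤ a) (hb : 2 ≤ b) (r : Fin a → ℕ) (c : Fin b → ℕ) {ε : ℝ}
    (hε : 0 < ε) (t : ℕ)
    (ht : (a.choose 2 : ℝ) * (b.choose 2 : ℝ) * (Real.log (Nat.card (Margins r c)) / 2 +
      Real.log (1 / (2 * ε))) ≤ t) : BipMixedWithin r c ε t := by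
  have hd := den_pos ha hb
  intro M
  have : Nonempty (Margins r c) := ⟨M⟩
  refine (lazy_bip ha hb).tv hε t ?_ M
  rw [Nat.card_eq_fintype_card] at ht
  rw [div_mul_eq_mul_div, le_div_iff₀ hd, den_eq]
  linarith only [ht]

open Classical in
theorem log_margins_le (r : Fin a → ℕ) (c : Fin b → ℕ) :
    Real.log (Nat.card (Margins r c)) ≤ (a * b : ℝ) * Real.log 2 := by
  rw [Nat.card_eq_fintype_card]
  have h1 : Fintype.card (Margins r c) ≤ Fintype.card (Fin a → Fin b → Bool) :=
    Fintype.card_subtype_le _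
  have h2 : Fintype.card (Fin a → Fin b → Bool) = 2 ^ (a * b) := by
    simp only [Fintype.card_pi, Fintype.card_bool, Finset.prod_const, Finset.card_univ,
      Fintype.card_fin]
    rw [← pow_mul, mul_comm]
  rw [h2] at h1
  by_cases h0 : Fintype.card (Margins r c) = 0
  · rw [h0, Nat.cast_zero, Real.log_zero]
    have := Real.log_nonneg (show (1 : ℝ) ≤ 2 by norm_num)
    positivity
  · have h3 : (Fintype.card (Margins r c) : ℝ) ≤ 2 ^ (a * b) := by exact_mod_cast h1
    have h4 : (0 : ℝ) < Fintype.card (Margins r c) := by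
      exact_mod_cast Nat.pos_of_ne_zero h0
    calc Real.log (Fintype.card (Margins r c)) ≤ Real.log (2 ^ (a * b)) := Real.log_le_log h4 h3
      _ = (a * b : ℝ) * Real.log 2 := by rw [Real.log_pow]; push_cast; rfl

/-- polynomial mixing, bipartite -/
theorem bip_poly (ha : 2 ≤ a) (hb : 2 ≤ b) (r : Fin a → ℕ) (c : Fin b → ℕ) (t : ℕ)
    (ht : (a * b) ^ 3 ≤ t) : BipMixedWithin r c (1 / 4) t := by
  refine bip_mixing ha hb r c (by norm_num) t ?_
  have h1 : (2 : ℝ) ≤ a := by exact_mod_cast ha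
  have h2 : (2 : ℝ) ≤ b := by exact_mod_cast hb
  have hl := log_margins_le r c
  have ht' : ((a : ℝ) * b) ^ 3 ≤ t := by exact_mod_cast ht
  have e : (1 / (2 * (1 / 4)) : ℝ) = 2 := by norm_num
  rw [e]
  have l2 : Real.log 2 ≤ 1 := by
    have := Real.log_two_lt_d9; linarith
  have l20 : 0 ≤ Real.log 2 := Real.log_nonneg (by norm_num)
  have hc0 : 0 ≤ Real.log (Nat.card (Margins r c)) := Real.log_natCast_nonneg _
  have hab : (4 : ℝ) ≤ a * b := by nlinarith
  have c1 : (a.choose 2 : ℝ) ≤ a ^ 2 / 2 := by rw [Nat.cast_choose_two]; nlinarith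
  have c2 : (b.choose 2 : ℝ) ≤ b ^ 2 / 2 := by rw [Nat.cast_choose_two]; nlinarith
  have h5 : Real.log (Nat.card (Margins r c)) / 2 + Real.log 2 ≤ a * b := by
    have : (a * b : ℝ) * Real.log 2 ≤ a * b * 1 := mul_le_mul_of_nonneg_left l2 (by positivity)
    linarith
  calc (a.choose 2 : ℝ) * (b.choose 2 : ℝ) * (Real.log (Nat.card (Margins r c)) / 2 + Real.log 2)
      ≤ (a ^ 2 / 2) * (b ^ 2 / 2) * (a * b) := by gcongr
    _ = ((a : ℝ) * b) ^ 3 / 4 := by ring
    _ ≤ ((a : ℝ) * b) ^ 3 := by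
        have : (0 : ℝ) ≤ ((a : ℝ) * b) ^ 3 := by positivity
        linarith
    _ ≤ t := ht'

end Chain

end Vale.Agent.P335.H586
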