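import Vale.Agent.P335.H586.Gap

/-!
# P335: the bipartite switch chain, via split graphs

A bipartite graph with degrees `r`, `c` becomes, after adding all the edges inside the first class,
a split graph; its degree vector has no other realizations, and its switches are exactly the
bipartite switches.
-/

namespace Vale.Agent.P335.H586

open Finset Vale.Agent.P335

section Count

open Classical in
theorem hasDegrees_iff {n : ℕ} (d : Fin n → ℕ) (G : SimpleGraph (Fin n)) :
    HasDegrees d G ↔ ∀ v, ∑ w, (if G.Adj v w then 1 else 0) = d v := by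
  unfold HasDegrees
  refine forall_congr' fun v => ?_
  rw [← Finset.card_filter, Set.ncard_eq_toFinset_card']
  have : (G.neighborSet v).toFinset = univ.filter (fun w => G.Adj v w) := by
    ext w; simp
  rw [this]

end Count

section Split

variable {a b : ℕ}

/-- vertices of the first and of the second class -/
abbrev vA (i : Fin a) : Fin (a + b) := Fin.castAdd b i
abbrev vB (j : Fin b) : Fin (a + b) := Fin.natAdd a j

theorem vA_inj {i i' : Fin a} : (vA i : Fin (a + b)) = vA i' ↔ i = i' := Fin.castAdd_inj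

theorem vB_inj {j j' : Fin b} : (vB j : Fin (a + b)) = vB j' ↔ j = j' := by
  constructor
  · intro h
    have := congrArg Fin.val h
    simp only [Fin.val_natAdd] at this
    exact Fin.ext (by omega)
  · rintro rfl; rfl

theorem vAB {i : Fin a} {j : Fin b} : (vA i : Fin (a + b)) ≠ vB j := by
  intro h
  have := congrArg Fin.val h
  simp only [Fin.val_castAdd, Fin.val_natAdd] at this
  have := i.isLt
  omega

theorem vtx (v : Fin (a + b)) : (∃ i : Fin a, v = vA i) ∨ ∃ j : Fin b, v = vB j := by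
  induction v using Fin.addCases with
  | left i => exact Or.inl ⟨i, rfl⟩
  | right j => exact Or.inr ⟨j, rfl⟩

/-- the split graph of a matrix -/
def sg (M : Fin a → Fin b → Bool) : SimpleGraph (Fin (a + b)) where
  Adj u v := (∃ i i' : Fin a, i ≠ i' ∧ u = vA i ∧ v = vA i') ∨
    (∃ (i : Fin a) (j : Fin b), M i j = true ∧ ((u = vA i ∧ v = vB j) ∨ (u = vB j ∧ v = vA i)))
  symm := ⟨by
    rintro u v (⟨i, i', h, rfl, rfl⟩ | ⟨i, j, h, h1 | h1⟩)
    · exact Or.inl ⟨i', i, h.symm, rfl, rfl⟩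
    · exact Or.inr ⟨i, j, h, Or.inr ⟨h1.2, h1.1⟩⟩
    · exact Or.inr ⟨i, j, h, Or.inl ⟨h1.2, h1.1⟩⟩⟩
  loopless := ⟨by
    rintro u (⟨i, i', h, h1, h2⟩ | ⟨i, j, h, ⟨h1, h2⟩ | ⟨h1, h2⟩⟩)
    · exact h (vA_inj.1 (h1.symm.trans h2))
    · exact vAB (h1.symm.trans h2)
    · exact vAB (h2.symm.trans h1)⟩

variable (M : Fin a → Fin b → Bool)

theorem sg_AA (i i' : Fin a) : (sg M).Adj (vA i) (vA i') ↔ i ≠ i' := by
  constructor
  · rintro (⟨k, k', h, h1, h2⟩ | ⟨k, j, h, ⟨h1, h2⟩ | ⟨h1, h2⟩⟩)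
    · rw [vA_inj.1 h1, vA_inj.1 h2]; exact h
    · exact absurd h2 vAB
    · exact absurd h1 vAB
  · intro h
    exact Or.inl ⟨i, i', h, rfl, rfl⟩

theorem sg_AB (i : Fin a) (j : Fin b) : (sg M).Adj (vA i) (vB j) ↔ M i j = true := by
  constructor
  · rintro (⟨k, k', h, h1, h2⟩ | ⟨k, l, h, ⟨h1, h2⟩ | ⟨h1, h2⟩⟩)
    · exact absurd h2.symm vAB
    · rw [vA_inj.1 h1, vB_inj.1 h2]; exact h
    · exact absurd h1 vAB
  · intro h
    exact Or.inr ⟨i, j, h, Or.inl ⟨rfl, rfl⟩⟩

theorem sg_BA (i : Fin a) (j : Fin b) : (sg M).Adj (vB j) (vA i) ↔ M i j = true := by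
  rw [SimpleGraph.adj_comm, sg_AB]

theorem sg_BB (j j' : Fin b) : ¬ (sg M).Adj (vB j) (vB j') := by
  rintro (⟨k, k', h, h1, h2⟩ | ⟨k, l, h, ⟨h1, h2⟩ | ⟨h1, h2⟩⟩)
  · exact absurd h1.symm vAB
  · exact absurd h1.symm vAB
  · exact absurd h2.symm vAB

/-- the degrees of the split graph -/
def sd (r : Fin a → ℕ) (c : Fin b → ℕ) : Fin (a + b) → ℕ := Fin.append (fun i => (a - 1) + r i) c

theorem sd_A (r : Fin a → ℕ) (c : Fin b → ℕ) (i : Fin a) : sd r c (vA i) = (a - 1) + r i := by
  unfold sd; simp [vA]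

theorem sd_B (r : Fin a → ℕ) (c : Fin b → ℕ) (j : Fin b) : sd r c (vB j) = c j := by
  unfold sd; simp [vB]

theorem sum_ne (i : Fin a) : ∑ i' : Fin a, (if i ≠ i' then 1 else 0) = a - 1 := by
  rw [← Finset.card_filter]
  have : (univ.filter fun i' => i ≠ i') = univ.erase i := by
    ext k; simp [eq_comm]
  rw [this, Finset.card_erase_of_mem (Finset.mem_univ i), Finset.card_univ, Fintype.card_fin]

variable {M} {r : Fin a → ℕ} {c : Fin b → ℕ}

open Classical in
theorem sg_deg (h : (∀ i, (univ.filter fun j => M i j = true).card = r i) ∧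
    ∀ j, (univ.filter fun i => M i j = true).card = c j) : HasDegrees (sd r c) (sg M) := by
  rw [hasDegrees_iff]
  intro v
  rw [Fin.sum_univ_add]
  rcases vtx v with ⟨i, rfl⟩ | ⟨j, rfl⟩
  · rw [sd_A]
    congr 1
    · simp_rw [sg_AA]
      exact sum_ne i
    · simp_rw [sg_AB]
      rw [← Finset.card_filter, h.1 i]
  · rw [sd_B]
    have e1 : ∑ i : Fin a, (if (sg M).Adj (vB j) (Fin.castAdd b i) then 1 else 0) = c j := by
      simp_rw [sg_BA]
      rw [← Finset.card_filter, h.2 j]
    have e2 : ∑ j' : Fin b, (if (sg M).Adj (vB j) (Fin.natAdd a j') then 1 else 0) = 0 := by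
      refine Finset.sum_eq_zero fun j' _ => ?_
      rw [if_neg (sg_BB M j j')]
    rw [e1, e2, add_zero]

open Classical in
/-- a realization of the degree vector of a split graph is the same kind of split graph -/
theorem split_of {G : SimpleGraph (Fin (a + b))} (hG : HasDegrees (sd r c) G)
    (hrc : ∑ i, r i = ∑ j, c j) :
    (∀ i i' : Fin a, i ≠ i' → G.Adj (vA i) (vA i')) ∧ ∀ j j' : Fin b, ¬ G.Adj (vB j) (vB j') := by
  rw [hasDegrees_iff] at hG
  have hA : ∀ i : Fin a, ∑ i', (if G.Adj (vA i) (vA i') then 1 else 0) +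
      ∑ j : Fin b, (if G.Adj (vA i) (vB j) then 1 else 0) = (a - 1) + r i := by
    intro i
    rw [← sd_A r c i, ← hG (vA i), Fin.sum_univ_add]
  have hB : ∀ j : Fin b, ∑ i : Fin a, (if G.Adj (vB j) (vA i) then 1 else 0) +
      ∑ j' : Fin b, (if G.Adj (vB j) (vB j') then 1 else 0) = c j := by
    intro j
    rw [← sd_B r c j, ← hG (vB j), Fin.sum_univ_add]
  have hA2 := Finset.sum_congr rfl fun i (_ : i ∈ (univ : Finset (Fin a))) => hA i
  have hB2 := Finset.sum_congr rfl fun j (_ : j ∈ (univ : Finset (Fin b))) => hB j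
  rw [Finset.sum_add_distrib, Finset.sum_add_distrib] at hA2
  rw [Finset.sum_add_distrib, Finset.sum_comm] at hB2
  have hsymm : ∑ i : Fin a, ∑ j : Fin b, (if G.Adj (vB j) (vA i) then 1 else 0) =
      ∑ i : Fin a, ∑ j : Fin b, (if G.Adj (vA i) (vB j) then 1 else 0) := by
    refine Finset.sum_congr rfl fun i _ => Finset.sum_congr rfl fun j _ => ?_
    rw [G.adj_comm]
  rw [hsymm] at hB2
  have hle : ∀ i : Fin a, ∑ i', (if G.Adj (vA i) (vA i') then 1 else 0) ≤ a - 1 := by
    intro i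
    rw [← sum_ne i]
    refine Finset.sum_le_sum fun i' _ => ?_
    by_cases h : i = i'
    · subst h; simp
    · rw [if_pos h]; split_ifs <;> simp
  have hle2 : ∑ i : Fin a, ∑ i', (if G.Adj (vA i : Fin (a + b)) (vA i') then 1 else 0) ≤
      ∑ _i : Fin a, (a - 1) := Finset.sum_le_sum fun i _ => hle i
  have hc2 : ∑ j, c j = univ.sum c := rfl
  have hBB : ∑ j : Fin b, ∑ j' : Fin b, (if G.Adj (vB j) (vB j') then 1 else 0) = 0 := by
    generalize (∑ j : Fin b, ∑ j' : Fin b, (if G.Adj (vB j) (vB j') then 1 else 0)) = SBB at *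
    generalize (∑ i : Fin a, ∑ i', (if G.Adj (vA i : Fin (a + b)) (vA i') then 1 else 0)) = SAA at *
    generalize (∑ i : Fin a, ∑ j : Fin b, (if G.Adj (vA i) (vB j) then 1 else 0)) = SAB at *
    omega
  have hAA : ∑ i : Fin a, ∑ i', (if G.Adj (vA i : Fin (a + b)) (vA i') then 1 else 0) =
      ∑ _i : Fin a, (a - 1) := by
    generalize (∑ j : Fin b, ∑ j' : Fin b, (if G.Adj (vB j) (vB j') then 1 else 0)) = SBB at *
    generalize (∑ i : Fin a, ∑ i', (if G.Adj (vA i : Fin (a + b)) (vA i') then 1 else 0)) = SAA at *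
    generalize (∑ i : Fin a, ∑ j : Fin b, (if G.Adj (vA i) (vB j) then 1 else 0)) = SAB at *
    omega
  constructor
  · intro i i' hii
    have h1 := (Finset.sum_eq_sum_iff_of_le fun i _ => hle i).1 hAA i (Finset.mem_univ i)
    rw [← sum_ne i] at h1
    have h2 := (Finset.sum_eq_sum_iff_of_le fun i' _ => ?_).1 h1 i' (Finset.mem_univ i')
    · rw [if_pos hii] at h2
      by_contra hc
      rw [if_neg hc] at h2
      exact absurd h2 (by norm_num)
    · by_cases h : i = i'
      · subst h; simp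
      · rw [if_pos h]; split_ifs <;> simp
  · intro j j' hjj
    have h1 := (Finset.sum_eq_zero_iff.1 hBB) j (Finset.mem_univ j)
    have h2 := (Finset.sum_eq_zero_iff.1 h1) j' (Finset.mem_univ j')
    rw [if_pos hjj] at h2
    exact absurd h2 (by norm_num)

/-- the split graph as a realization -/
def PhiF (r : Fin a → ℕ) (c : Fin b → ℕ) (M : Margins r c) : Realization (sd r c) :=
  ⟨sg M.1, sg_deg M.2⟩

theorem Phi_inj : Function.Injective (PhiF r c) := by
  intro M N h
  have h1 : sg M.1 = sg N.1 := congrArg Subtype.val h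
  refine Subtype.ext (funext fun i => funext fun j => ?_)
  rw [Bool.eq_iff_iff, ← sg_AB, ← sg_AB, h1]

open Classical in
theorem sum_margins (M : Margins r c) : ∑ i, r i = ∑ j, c j := by
  have h1 : ∀ i, r i = ∑ j, (if M.1 i j = true then 1 else 0) := fun i => by
    rw [← Finset.card_filter, M.2.1 i]
  have h2 : ∀ j, c j = ∑ i, (if M.1 i j = true then 1 else 0) := fun j => by
    rw [← Finset.card_filter, M.2.2 j]
  simp_rw [h1, h2]
  exact Finset.sum_comm

open Classical in
theorem Phi_surj [hne : Nonempty (Margins r c)] : Function.Surjective (PhiF r c) := by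
  intro G
  have hrc := sum_margins (Classical.choice hne)
  obtain ⟨hAA, hBB⟩ := split_of G.2 hrc
  have hG := (hasDegrees_iff _ _).1 G.2
  refine ⟨⟨fun i j => decide (G.1.Adj (vA i) (vB j)), ?_, ?_⟩, ?_⟩
  · intro i
    have h1 := hG (vA i)
    rw [sd_A, Fin.sum_univ_add] at h1
    have e1 : ∑ i' : Fin a, (if G.1.Adj (vA i) (Fin.castAdd b i') then 1 else 0) = a - 1 := by
      rw [← sum_ne i]
      refine Finset.sum_congr rfl fun i' _ => ?_
      by_cases h : i = i'
      · subst h; simp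
      · rw [if_pos h, if_pos (hAA i i' h)]
    rw [e1] at h1
    have h2 := Nat.add_left_cancel h1
    rw [← h2, ← Finset.card_filter]
    congr 1
    ext j
    simp
  · intro j
    have h1 := hG (vB j)
    rw [sd_B, Fin.sum_univ_add] at h1
    have e2 : ∑ j' : Fin b, (if G.1.Adj (vB j) (Fin.natAdd a j') then 1 else 0) = 0 := by
      refine Finset.sum_eq_zero fun j' _ => ?_
      rw [if_neg (hBB j j')]
    rw [e2, add_zero, ← Finset.card_filter] at h1
    rw [← h1]
    congr 1
    ext i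
    simp [G.1.adj_comm (vA i) (vB j)]
  · refine Subtype.ext ?_
    show sg _ = G.1
    ext u v
    rcases vtx u with ⟨i, rfl⟩ | ⟨j, rfl⟩ <;> rcases vtx v with ⟨i', rfl⟩ | ⟨j', rfl⟩
    · rw [sg_AA]
      constructor
      · exact hAA i i'
      · rintro h rfl
        exact G.1.irrefl h
    · rw [sg_AB]; simp
    · rw [sg_BA, G.1.adj_comm]; simp
    · exact ⟨fun h => absurd h (sg_BB _ j j'), fun h => absurd h (hBB j j')⟩

/-- adjacency of the bipartite switch graph -/
def BipAdj (M N : Fin a → Fin b → Bool) : Prop :=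
  ∃ i i' j j', i ≠ i' ∧ j ≠ j' ∧ M i j = true ∧ M i' j' = true ∧ M i j' = false ∧ M i' j = false ∧
    N = bipMove M i i' j j'

theorem move_eq {M N : Fin a → Fin b → Bool} {i i' : Fin a} {j j' : Fin b} (hi : i ≠ i')
    (hj : j ≠ j') (h1 : M i j = true) (h2 : M i' j' = true) (h3 : M i j' = false)
    (h4 : M i' j = false)
    (h : ∀ k l, N k l = true ↔ (M k l = true ∧ ¬ (k = i ∧ l = j) ∧ ¬ (k = i' ∧ l = j')) ∨
      (k = i ∧ l = j') ∨ (k = i' ∧ l = j)) : N = bipMove M i i' j j' := by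
  funext k l
  unfold bipMove
  rw [if_pos ⟨by rw [h1, h2], by rw [h3, h4], by rw [h1, h3]; decide⟩, Bool.eq_iff_iff, h k l]
  by_cases ki : k = i
  · subst ki
    by_cases lj : l = j
    · subst lj
      simp [h1, hi, hj]
    · by_cases lj' : l = j'
      · subst lj'
        simp [h3, hi]
      · simp [lj, lj', hi]
  · by_cases ki' : k = i'
    · subst ki'
      by_cases lj : l = j
      · subst lj
        simp [h4, hi, hj, hi.symm]
      · by_cases lj' : l = j'
        · subst lj'
          simp [h2, hi.symm, hj.symm]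
        · simp [lj, lj', hi.symm]
    · simp [ki, ki']

theorem bipAdj_of_switch {M N : Fin a → Fin b → Bool} (h : SwitchAdj (sg M) (sg N)) :
    BipAdj M N := by
  obtain ⟨p, q, u, v, hpq, hpu, hpv, hqu, hqv, huv, h1, h2, h3, h4, h5⟩ := h
  have hN : ∀ k l, N k l = true ↔ ((M k l = true ∧ s((vA k : Fin (a + b)), vB l) ≠ s(p, q) ∧
      s((vA k : Fin (a + b)), vB l) ≠ s(u, v)) ∨
      (s((vA k : Fin (a + b)), vB l) = s(p, u) ∨ s((vA k : Fin (a + b)), vB l) = s(q, v))) := by
    intro k l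
    rw [← sg_AB N, h5, SimpleGraph.fromEdgeSet_adj]
    simp only [Set.mem_union, Set.mem_sdiff, SimpleGraph.mem_edgeSet, Set.mem_insert_iff,
      Set.mem_singleton_iff, sg_AB, not_or]
    constructor
    · rintro ⟨h, _⟩; exact h
    · intro h; exact ⟨h, vAB⟩
  rcases vtx p with ⟨i, rfl⟩ | ⟨j, rfl⟩
  · rcases vtx u with ⟨i'', rfl⟩ | ⟨j', rfl⟩
    · exfalso
      rw [sg_AA, not_not] at h3
      subst h3
      exact hpu rfl
    rcases vtx q with ⟨i'', rfl⟩ | ⟨j, rfl⟩
    · exfalso
      rcases vtx v with ⟨i3, rfl⟩ | ⟨j3, rfl⟩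
      · rw [sg_AA, not_not] at h4
        subst h4
        exact hqv rfl
      · exact sg_BB M _ _ h2
    rcases vtx v with ⟨i', rfl⟩ | ⟨j3, rfl⟩
    swap
    · exact absurd h2 (sg_BB M _ _)
    rw [sg_AB] at h1 h3
    rw [sg_BA] at h2 h4
    have hi : i ≠ i' := fun h => hpv (by rw [h])
    have hj : j ≠ j' := fun h => hqu (by rw [h])
    refine ⟨i, i', j, j', hi, hj, h1, h2, by simpa using h3, by simpa using h4, ?_⟩
    refine move_eq hi hj h1 h2 (by simpa using h3) (by simpa using h4) fun k l => ?_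
    rw [hN k l]
    simp only [ne_eq, Sym2.eq_iff, vA_inj, vB_inj, vAB, false_and, or_false, and_false,
      vAB.symm, false_or]
  · rcases vtx q with ⟨i, rfl⟩ | ⟨j3, rfl⟩
    swap
    · exact absurd h1 (sg_BB M _ _)
    rcases vtx v with ⟨i3, rfl⟩ | ⟨j', rfl⟩
    · exfalso
      rw [sg_AA, not_not] at h4
      subst h4
      exact hqv rfl
    rcases vtx u with ⟨i', rfl⟩ | ⟨j3, rfl⟩
    swap
    · exact absurd h2 (sg_BB M _ _)
    rw [sg_BA] at h1 h3
    rw [sg_AB] at h2 h4
    have hi : i ≠ i' := fun h => hqu (by rw [h])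
    have hj : j ≠ j' := fun h => hpv (by rw [h])
    refine ⟨i, i', j, j', hi, hj, h1, h2, by simpa using h4, by simpa using h3, ?_⟩
    refine move_eq hi hj h1 h2 (by simpa using h4) (by simpa using h3) fun k l => ?_
    rw [hN k l]
    simp only [ne_eq, Sym2.eq_iff, vA_inj, vB_inj, vAB, false_and, or_false, and_false,
      vAB.symm, false_or]
    tauto

end Split

end Vale.Agent.P335.H586
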