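import Vale.Agent.P335.Defs

namespace Vale.Agent.P335.H586

open Finset

open Classical in
/-- After `t` steps the switch chain is within total variation distance `ε` of uniform, from every
starting graph (`MixedBy d` is the case `ε = 1/4`). -/
def MixedWithin {n : ℕ} (d : Fin n → ℕ) (ε : ℝ) (t : ℕ) : Prop :=
  ∀ G : Realization d,
    (1 / 2) * ∑ H : Realization d,
      |(switchChain d ^ t) G H - 1 / (Fintype.card (Realization d) : ℝ)| ≤ ε

open Classical in
/-- `f` is an eigenfunction of the switch chain, with eigenvalue `l`. -/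
def IsEigen {n : ℕ} (d : Fin n → ℕ) (l : ℝ) (f : Realization d → ℝ) : Prop :=
  f ≠ 0 ∧ ∀ G : Realization d, ∑ H : Realization d, switchChain d G H * f H = l * f G

/-! ### The bipartite switch chain -/

/-- The bipartite graphs with vertex classes `Fin a`, `Fin b` and degrees `r`, `c`, i.e. the
`a × b` matrices with entries `0, 1`, row sums `r` and column sums `c`. -/
abbrev Margins {a b : ℕ} (r : Fin a → ℕ) (c : Fin b → ℕ) : Type :=
  {M : Fin a → Fin b → Bool // (∀ i, (univ.filter fun j => M i j = true).card = r i) ∧
    ∀ j, (univ.filter fun i => M i j = true).card = c j}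

/-- If the submatrix of the rows `i, i'` and the columns `j, j'` is one of the two permutation
matrices, replace it by the other one; otherwise do nothing. -/
def bipMove {a b : ℕ} (M : Fin a → Fin b → Bool) (i i' : Fin a) (j j' : Fin b) :
    Fin a → Fin b → Bool :=
  if M i j = M i' j' ∧ M i j' = M i' j ∧ M i j ≠ M i j' then
    fun k l => if (k = i ∨ k = i') ∧ (l = j ∨ l = j') then !(M k l) else M k l
  else M

open Classical in
/-- The bipartite switch chain: with probability `1/2` stay put; otherwise choose two different
rows and two different columns uniformly and apply `bipMove`. -/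
noncomputable def bipChain {a b : ℕ} (r : Fin a → ℕ) (c : Fin b → ℕ) :
    Matrix (Margins r c) (Margins r c) ℝ :=
  fun M N => (1 / 2) * (if M = N then 1 else 0) +
    (1 / 2) * ∑ p ∈ (univ : Finset (Fin a)).offDiag, ∑ q ∈ (univ : Finset (Fin b)).offDiag,
      (1 / ((a * (a - 1) : ℝ) * (b * (b - 1) : ℝ))) *
        (if bipMove M.1 p.1 p.2 q.1 q.2 = N.1 then 1 else 0)

open Classical in
/-- After `t` steps the bipartite switch chain is within total variation distance `ε` of uniform,
from every starting matrix. -/
def BipMixedWithin {a b : ℕ} (r : Fin a → ℕ) (c : Fin b → ℕ) (ε : ℝ) (t : ℕ) : Prop :=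
  ∀ M : Margins r c,
    (1 / 2) * ∑ N : Margins r c,
      |(bipChain r c ^ t) M N - 1 / (Fintype.card (Margins r c) : ℝ)| ≤ ε

open Classical in
/-- `f` is an eigenfunction of the bipartite switch chain, with eigenvalue `l`. -/
def IsBipEigen {a b : ℕ} (r : Fin a → ℕ) (c : Fin b → ℕ) (l : ℝ) (f : Margins r c → ℝ) : Prop :=
  f ≠ 0 ∧ ∀ M : Margins r c, ∑ N : Margins r c, bipChain r c M N * f N = l * f M

end Vale.Agent.P335.H586
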