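import Vale.Agent.P335.H586.Defs
import Vale.Agent.P335.Bdl.B2
import Mathlib.Combinatorics.SimpleGraph.DegreeSum

/-!
# P335: spectral gap of the switch chain and mixing to every accuracy
-/

namespace Vale.Agent.P335.H586

open Finset Vale.Agent.P335

section Abstract

variable {Ω : Type*} [Fintype Ω]

/-- `Σ f Q f ≥ - Σ f²` for a symmetric stochastic matrix. -/
theorem quad_ge (Q : Ω → Ω → ℝ) (h0 : ∀ x y, 0 ≤ Q x y) (hs : ∀ x y, Q x y = Q y x)
    (h1 : ∀ x, ∑ y, Q x y = 1) (f : Ω → ℝ) :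
    0 ≤ ∑ x, f x ^ 2 + ∑ x, f x * ∑ y, Q x y * f y := by
  have key : 0 ≤ ∑ x, ∑ y, Q x y * (f x + f y) ^ 2 :=
    Finset.sum_nonneg fun y _ => Finset.sum_nonneg fun z _ => mul_nonneg (h0 y z) (sq_nonneg _)
  have e1 : ∀ x y, Q x y * (f x + f y) ^ 2 =
      Q x y * f x ^ 2 + Q x y * f y ^ 2 + 2 * (f x * (Q x y * f y)) := by
    intro x y; ring
  simp_rw [e1] at key
  simp only [Finset.sum_add_distrib, ← Finset.mul_sum, ← Finset.sum_mul, h1, one_mul] at key
  have e2 : ∑ x, ∑ y, Q x y * f y ^ 2 = ∑ z, f z ^ 2 := by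
    rw [Finset.sum_comm]
    refine Finset.sum_congr rfl fun z _ => ?_
    rw [← Finset.sum_mul]
    have : ∑ y, Q y z = 1 := by
      rw [← h1 z]; exact Finset.sum_congr rfl fun y _ => hs y z
    rw [this, one_mul]
  rw [e2] at key
  linarith only [key]

variable [DecidableEq Ω]

omit [DecidableEq Ω] in
theorem dir_eq (P : Ω → Ω → ℝ) (hs : ∀ x y, P x y = P y x) (h1 : ∀ x, ∑ y, P x y = 1)
    (f : Ω → ℝ) :
    ∑ x, ∑ y, (1 / 2) * (P x y * (f x - f y) ^ 2) = ∑ x, f x ^ 2 - ∑ x, f x * ∑ y, P x y * f y := by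
  have e1 : ∀ x y, (1 / 2) * (P x y * (f x - f y) ^ 2) =
      (1 / 2) * (P x y * f x ^ 2) + (1 / 2) * (P x y * f y ^ 2) - f x * (P x y * f y) := by
    intro x y; ring
  simp_rw [e1]
  simp only [Finset.sum_add_distrib, Finset.sum_sub_distrib, ← Finset.mul_sum, ← Finset.sum_mul,
    h1, one_mul]
  have e2 : ∑ x, ∑ y, P x y * f y ^ 2 = ∑ z, f z ^ 2 := by
    rw [Finset.sum_comm]
    refine Finset.sum_congr rfl fun z _ => ?_
    rw [← Finset.sum_mul]
    have : ∑ y, P y z = 1 := by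
      rw [← h1 z]; exact Finset.sum_congr rfl fun y _ => hs y z
    rw [this, one_mul]
  rw [e2]
  ring

/-- data of a lazy symmetric chain with gap `γ ≤ 1` -/
structure Lazy (Q P : Ω → Ω → ℝ) (γ : ℝ) : Prop where
  h0 : ∀ x y, 0 ≤ Q x y
  hs : ∀ x y, Q x y = Q y x
  h1 : ∀ x, ∑ y, Q x y = 1
  hP : ∀ x y, P x y = (1 / 2) * (if x = y then 1 else 0) + (1 / 2) * Q x y
  hγ0 : 0 < γ
  hγ : γ ≤ 1
  gap : ∀ f : Ω → ℝ, ∑ x, f x = 0 →
      γ * ∑ x, f x ^ 2 ≤ ∑ x, ∑ y, (1 / 2) * (P x y * (f x - f y) ^ 2)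

namespace Lazy

variable {Q P : Ω → Ω → ℝ} {γ : ℝ} (h : Lazy Q P γ)
include h

theorem Ps (x y : Ω) : P x y = P y x := by
  rw [h.hP, h.hP, h.hs x y]
  by_cases hxy : x = y
  · subst hxy; rfl
  · simp [hxy, Ne.symm hxy]

theorem P1 (x : Ω) : ∑ y, P x y = 1 := by
  simp_rw [h.hP]
  rw [Finset.sum_add_distrib, ← Finset.mul_sum, ← Finset.mul_sum, h.h1]
  simp
  norm_num

theorem Pg (f : Ω → ℝ) (y : Ω) :
    ∑ z, P y z * f z = (1 / 2) * f y + (1 / 2) * ∑ z, Q y z * f z := by
  simp_rw [h.hP]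
  simp only [add_mul, mul_assoc, Finset.sum_add_distrib, ← Finset.mul_sum, ite_mul, one_mul,
    zero_mul, Finset.sum_ite_eq, Finset.mem_univ, if_true]

/-- the chain is positive semidefinite -/
theorem psd (f : Ω → ℝ) : 0 ≤ ∑ x, f x * ∑ y, P x y * f y := by
  have h2 := quad_ge Q h.h0 h.hs h.h1 f
  simp_rw [h.Pg]
  have e : ∀ x, f x * (1 / 2 * f x + 1 / 2 * ∑ z, Q x z * f z) =
      (1 / 2) * f x ^ 2 + (1 / 2) * (f x * ∑ z, Q x z * f z) := by
    intro x; ring
  simp_rw [e]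
  rw [Finset.sum_add_distrib, ← Finset.mul_sum, ← Finset.mul_sum]
  linarith only [h2]

theorem gap' (f : Ω → ℝ) (hf : ∑ x, f x = 0) :
    ∑ x, f x * ∑ y, P x y * f y ≤ (1 - γ) * ∑ x, f x ^ 2 := by
  have h2 := h.gap f hf
  rw [dir_eq P h.Ps h.P1] at h2
  linarith only [h2]

theorem sum_P (f : Ω → ℝ) : ∑ y, ∑ z, P y z * f z = ∑ z, f z := by
  rw [Finset.sum_comm]
  refine Finset.sum_congr rfl fun z _ => ?_
  rw [← Finset.sum_mul]
  have : ∑ y, P y z = 1 := by
    rw [← h.P1 z]; exact Finset.sum_congr rfl fun y _ => h.Ps y z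
  rw [this, one_mul]

theorem adj (f g : Ω → ℝ) :
    ∑ x, f x * ∑ y, P x y * g y = ∑ x, (∑ y, P x y * f y) * g x := by
  simp_rw [Finset.mul_sum, Finset.sum_mul]
  rw [Finset.sum_comm]
  refine Finset.sum_congr rfl fun x _ => Finset.sum_congr rfl fun y _ => ?_
  rw [h.Ps y x]; ring

/-- One step contracts the `ℓ²` norm of a mean zero function by `1 - γ`. -/
theorem step (g : Ω → ℝ) (hg : ∑ x, g x = 0) :
    ∑ y, (∑ z, P y z * g z) ^ 2 ≤ (1 - γ) ^ 2 * ∑ z, g z ^ 2 := by
  set c := 1 - γ with hc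
  have hc0 : 0 ≤ c := by have := h.hγ; rw [hc]; linarith
  set Pg : Ω → ℝ := fun y => ∑ z, P y z * g z with hPg
  have hPg0 : ∑ y, Pg y = 0 := by rw [hPg]; simp only; rw [h.sum_P, hg]
  -- the four numbers
  set A := ∑ x, g x ^ 2
  set B := ∑ x, g x * Pg x with hB
  set C := ∑ x, Pg x ^ 2 with hC
  set D := ∑ x, Pg x * ∑ y, P x y * Pg y with hD
  have h1 : B ≤ c * A := h.gap' g hg
  have h2 : D ≤ c * C := h.gap' Pg hPg0
  have hB0 : 0 ≤ B := h.psd g
  have hD0 : 0 ≤ D := h.psd Pg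
  have h3 : ∀ s : ℝ, 0 ≤ s ^ 2 * B - 2 * s * C + D := by
    intro s
    have h4 := h.psd (fun x => s * g x - Pg x)
    have e1 : ∀ x, ∑ y, P x y * (s * g y - Pg y) = s * Pg x - ∑ y, P x y * Pg y := by
      intro x
      simp_rw [mul_sub, Finset.sum_sub_distrib]
      congr 1
      rw [hPg]
      simp only
      rw [Finset.mul_sum]
      exact Finset.sum_congr rfl fun y _ => by ring
    simp_rw [e1] at h4
    have e2 : ∀ x, (s * g x - Pg x) * (s * Pg x - ∑ y, P x y * Pg y) =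
        s ^ 2 * (g x * Pg x) - s * (g x * ∑ y, P x y * Pg y) - s * Pg x ^ 2 +
          Pg x * ∑ y, P x y * Pg y := by
      intro x; ring
    simp_rw [e2] at h4
    rw [Finset.sum_add_distrib, Finset.sum_sub_distrib, Finset.sum_sub_distrib, ← Finset.mul_sum,
      ← Finset.mul_sum, ← Finset.mul_sum, h.adj g Pg] at h4
    have e3 : ∑ x, (∑ y, P x y * g y) * Pg x = C := by
      rw [hC]
      exact Finset.sum_congr rfl fun x _ => by rw [pow_two]
    rw [e3] at h4
    linarith only [h4]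
  rcases hc0.eq_or_lt with hc1 | hc1
  · -- `c = 0`
    rw [← hc1] at h1 ⊢
    have hB1 : B = 0 := le_antisymm (by linarith) hB0
    have hC0 : C ≤ 0 := by
      by_contra hcon
      push Not at hcon
      have h5 := h3 (D / C + 1)
      rw [hB1] at h5
      have e : 2 * (D / C + 1) * C = 2 * D + 2 * C := by field_simp
      rw [e] at h5
      linarith
    linarith
  · have h5 : 0 ≤ c * (c * B - C) := by linarith only [h2, h3 c]
    have h6 : C ≤ c * B := by
      by_contra hcon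
      push Not at hcon
      have : c * (c * B - C) < 0 := mul_neg_of_pos_of_neg hc1 (by linarith)
      linarith
    calc C ≤ c * B := h6
      _ ≤ c * (c * A) := mul_le_mul_of_nonneg_left h1 hc0
      _ = c ^ 2 * A := by ring

omit h in
theorem mixing [Nonempty Ω] {P : Matrix Ω Ω ℝ} (h : Lazy Q P γ) (t : ℕ) (x : Ω) :
    ∑ y, ((P ^ t) x y - 1 / (Fintype.card Ω : ℝ)) = 0 ∧
    ∑ y, ((P ^ t) x y - 1 / (Fintype.card Ω : ℝ)) ^ 2 ≤ ((1 - γ) ^ t) ^ 2 := by
  have hN : (0 : ℝ) < Fintype.card Ω := by exact_mod_cast Fintype.card_pos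
  induction t with
  | zero =>
    constructor
    · rw [pow_zero]
      simp only [Matrix.one_apply, Finset.sum_sub_distrib, Finset.sum_ite_eq, Finset.mem_univ,
        if_true, Finset.sum_const, Finset.card_univ, nsmul_eq_mul]
      field_simp
      ring
    · rw [pow_zero]
      have : ∀ y, ((1 : Matrix Ω Ω ℝ) x y - 1 / (Fintype.card Ω : ℝ)) ^ 2
          = (if x = y then 1 else 0) * (1 - 2 / (Fintype.card Ω : ℝ))
            + (1 / (Fintype.card Ω : ℝ)) ^ 2 := by
        intro y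
        rw [Matrix.one_apply]
        split_ifs <;> ring
      simp_rw [this]
      rw [Finset.sum_add_distrib, ← Finset.sum_mul]
      simp only [Finset.sum_ite_eq, Finset.mem_univ,
        if_true, Finset.sum_const, Finset.card_univ, nsmul_eq_mul]
      have e : (Fintype.card Ω : ℝ) * (1 / (Fintype.card Ω : ℝ)) ^ 2 = 1 / (Fintype.card Ω : ℝ) := by
        (clear h this; field_simp)
      rw [e]
      have h2 : 0 < 1 / (Fintype.card Ω : ℝ) := by positivity
      have h3 : 2 / (Fintype.card Ω : ℝ) = 2 * (1 / (Fintype.card Ω : ℝ)) := by ring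
      rw [h3]
      have h4 : ((1 - γ) ^ 0) ^ 2 = 1 := by norm_num
      rw [h4]
      linarith only [h2]
  | succ t ih =>
    obtain ⟨ih1, ih2⟩ := ih
    have hstep : ∀ y, (P ^ (t + 1)) x y - 1 / (Fintype.card Ω : ℝ)
        = ∑ z, P y z * ((P ^ t) x z - 1 / (Fintype.card Ω : ℝ)) := by
      intro y
      rw [pow_succ, Matrix.mul_apply]
      simp_rw [mul_sub]
      rw [Finset.sum_sub_distrib, ← Finset.sum_mul, h.P1, one_mul]
      congr 1
      refine Finset.sum_congr rfl fun z _ => ?_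
      rw [h.Ps z y, mul_comm]
    constructor
    · simp_rw [hstep]
      rw [h.sum_P (fun z => (P ^ t) x z - 1 / (Fintype.card Ω : ℝ))]
      exact ih1
    · simp_rw [hstep]
      refine (h.step (fun z => (P ^ t) x z - 1 / (Fintype.card Ω : ℝ)) ih1).trans ?_
      calc (1 - γ) ^ 2 * ∑ z, ((P ^ t) x z - 1 / (Fintype.card Ω : ℝ)) ^ 2
          ≤ (1 - γ) ^ 2 * ((1 - γ) ^ t) ^ 2 := mul_le_mul_of_nonneg_left ih2 (sq_nonneg _)
        _ = ((1 - γ) ^ (t + 1)) ^ 2 := by ring

omit h in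
/-- total variation distance after `t` steps -/
theorem tv [Nonempty Ω] {P : Matrix Ω Ω ℝ} (h : Lazy Q P γ) {ε : ℝ} (hε : 0 < ε) (t : ℕ)
    (ht : Real.log (Fintype.card Ω) / 2 + Real.log (1 / (2 * ε)) ≤ γ * t) (x : Ω) :
    (1 / 2) * ∑ y, |(P ^ t) x y - 1 / (Fintype.card Ω : ℝ)| ≤ ε := by
  have hN : (0 : ℝ) < Fintype.card Ω := by exact_mod_cast Fintype.card_pos
  obtain ⟨_, h2⟩ := h.mixing t x
  have h3 : (∑ y, |(P ^ t) x y - 1 / (Fintype.card Ω : ℝ)|) ^ 2 ≤
      (Fintype.card Ω : ℝ) * ∑ y, ((P ^ t) x y - 1 / (Fintype.card Ω : ℝ)) ^ 2 := by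
    have := sq_sum_le_card_mul_sum_sq (s := (univ : Finset Ω))
      (f := fun y => |(P ^ t) x y - 1 / (Fintype.card Ω : ℝ)|)
    simpa only [sq_abs, Finset.card_univ] using this
  have hc0 : 0 ≤ 1 - γ := by have := h.hγ; linarith
  have h4 : (1 - γ) ^ t ≤ Real.exp (-(γ * t)) := by
    have h5 : 1 - γ ≤ Real.exp (-γ) := by
      have := Real.add_one_le_exp (-γ); linarith
    calc (1 - γ) ^ t ≤ Real.exp (-γ) ^ t := pow_le_pow_left₀ hc0 h5 t
      _ = Real.exp (-(γ * t)) := by rw [← Real.exp_nat_mul]; congr 1; ring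
  have h6 : Real.exp (-(γ * t)) ^ 2 ≤ (2 * ε) ^ 2 / Fintype.card Ω := by
    have h7 : Real.exp (-(γ * t)) ^ 2 = Real.exp (-(2 * (γ * t))) := by
      rw [← Real.exp_nat_mul]; congr 1; push_cast; ring
    have h8 : (2 * ε) ^ 2 / Fintype.card Ω =
        Real.exp (-(Real.log (Fintype.card Ω) + 2 * Real.log (1 / (2 * ε)))) := by
      rw [neg_add, Real.exp_add, Real.exp_neg, Real.exp_log hN]
      have h9 : -(2 * Real.log (1 / (2 * ε))) = Real.log ((2 * ε) ^ 2) := by
        rw [Real.log_pow, one_div, Real.log_inv]; push_cast; ring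
      rw [h9, Real.exp_log (by positivity), div_eq_inv_mul]
    rw [h7, h8]
    apply Real.exp_le_exp.mpr
    linarith only [ht]
  have h10 : (∑ y, |(P ^ t) x y - 1 / (Fintype.card Ω : ℝ)|) ^ 2 ≤ (2 * ε) ^ 2 := by
    calc _ ≤ _ := h3
      _ ≤ (Fintype.card Ω : ℝ) * ((2 * ε) ^ 2 / Fintype.card Ω) := by
          refine mul_le_mul_of_nonneg_left (h2.trans (le_trans ?_ h6)) hN.le
          exact pow_le_pow_left₀ (by positivity) h4 2
      _ = (2 * ε) ^ 2 := by field_simp
  have h11 := (le_abs_self _).trans (abs_le_of_sq_le_sq h10 (by positivity))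
  linarith only [h11]

omit h in
/-- the eigenvalues -/
theorem eigen [Nonempty Ω] (h : Lazy Q P γ) {l : ℝ} {f : Ω → ℝ}
    (hf : ∀ x, ∑ y, P x y * f y = l * f x) (hne : ∃ x y, f x ≠ f y) : 0 ≤ l ∧ l ≤ 1 - γ := by
  have hN : (0 : ℝ) < Fintype.card Ω := by exact_mod_cast Fintype.card_pos
  obtain ⟨x0, y0, hxy⟩ := hne
  -- `f` is not zero
  have hpos : 0 < ∑ x, f x ^ 2 := by
    by_contra hcon
    have h0 : ∑ x, f x ^ 2 = 0 := le_antisymm (not_lt.1 hcon) (Finset.sum_nonneg fun _ _ => sq_nonneg _)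
    have h1 := (Finset.sum_eq_zero_iff_of_nonneg (fun _ _ => sq_nonneg _)).1 h0
    have hx := pow_eq_zero_iff (two_ne_zero) |>.1 (h1 x0 (Finset.mem_univ _))
    have hy := pow_eq_zero_iff (two_ne_zero) |>.1 (h1 y0 (Finset.mem_univ _))
    exact hxy (hx.trans hy.symm)
  have hB : ∑ x, f x * ∑ y, P x y * f y = l * ∑ x, f x ^ 2 := by
    simp_rw [hf]
    rw [Finset.mul_sum]
    exact Finset.sum_congr rfl fun x _ => by ring
  have hl0 : 0 ≤ l := by
    have h2 := h.psd f
    rw [hB] at h2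
    by_contra hcon
    have := mul_neg_of_neg_of_pos (not_le.1 hcon) hpos
    linarith
  refine ⟨hl0, ?_⟩
  have hsum : (1 - l) * ∑ x, f x = 0 := by
    have h2 := h.sum_P f
    simp_rw [hf] at h2
    rw [← Finset.mul_sum] at h2
    linarith
  rcases mul_eq_zero.1 hsum with hl | hs
  · -- `l = 1`: `f` is constant
    exfalso
    have hl1 : l = 1 := by linarith
    set m := (∑ x, f x) / Fintype.card Ω with hm
    set g : Ω → ℝ := fun x => f x - m with hg
    have hg0 : ∑ x, g x = 0 := by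
      rw [hg]
      simp only [Finset.sum_sub_distrib, Finset.sum_const, Finset.card_univ, nsmul_eq_mul]
      rw [hm]; field_simp; ring
    have hPgx : ∀ x, ∑ y, P x y * g y = g x := by
      intro x
      rw [hg]
      simp only [mul_sub, Finset.sum_sub_distrib, ← Finset.sum_mul, h.P1, one_mul]
      rw [hf x, hl1, one_mul]
    have h3 := h.step g hg0
    simp_rw [hPgx] at h3
    have hgp : 0 < ∑ x, g x ^ 2 := by
      by_contra hcon
      have h0 : ∑ x, g x ^ 2 = 0 :=
        le_antisymm (not_lt.1 hcon) (Finset.sum_nonneg fun _ _ => sq_nonneg _)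
      have h1 := (Finset.sum_eq_zero_iff_of_nonneg (fun _ _ => sq_nonneg _)).1 h0
      have hx := pow_eq_zero_iff (two_ne_zero) |>.1 (h1 x0 (Finset.mem_univ _))
      have hy := pow_eq_zero_iff (two_ne_zero) |>.1 (h1 y0 (Finset.mem_univ _))
      simp only [hg] at hx hy
      exact hxy (by linarith)
    have hgm := h.gap g hg0
    have hD0 : ∑ x, ∑ y, (1 / 2) * (P x y * (g x - g y) ^ 2) = 0 := by
      rw [dir_eq P h.Ps h.P1]
      simp_rw [hPgx]
      rw [← Finset.sum_sub_distrib]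
      exact Finset.sum_eq_zero fun x _ => by ring
    rw [hD0] at hgm
    have := mul_pos h.hγ0 hgp
    linarith
  · have h2 := h.gap' f hs
    rw [hB] at h2
    exact le_of_mul_le_mul_right h2 hpos

end Lazy

end Abstract

section Chain

variable {n : ℕ}

theorem move_edges {G H : SimpleGraph (Fin n)} (hne : G ≠ H)
    {S : Finset (Fin n)} {F F' : Finset (Sym2 (Fin n))}
    (hF' : F' ∈ perfectMatchings S) (h : switchMove G F F' = H) :
    (∀ e, e ∈ F ↔ e ∈ G.edgeSet ∧ e ∉ H.edgeSet) ∧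
      (∀ e, e ∈ F' ↔ e ∈ H.edgeSet ∧ e ∉ G.edgeSet) := by
  classical
  unfold switchMove at h
  split_ifs at h with hc
  swap
  · exact absurd h hne
  obtain ⟨hc1, hc2⟩ := hc
  have hmem : ∀ e, e ∈ H.edgeSet ↔ (e ∈ G.edgeSet ∧ e ∉ F) ∨ e ∈ F' := by
    intro e
    rw [← h, SimpleGraph.edgeSet_fromEdgeSet]
    simp only [Set.mem_sdiff, Set.mem_union, Finset.mem_coe]
    constructor
    · rintro ⟨h, _⟩; exact h
    · intro h
      refine ⟨h, ?_⟩
      rcases h with h | h
      · exact G.not_isDiag_of_mem_edgeSet h.1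
      · exact (mem_PM.mp hF').2.1 e h
  constructor
  · intro e
    rw [hmem]
    constructor
    · intro he
      refine ⟨hc1 e he, ?_⟩
      rintro (h1 | h1)
      · exact h1.2 he
      · exact hc2 e h1 (hc1 e he)
    · rintro ⟨h1, h2⟩
      by_contra h3
      exact h2 (Or.inl ⟨h1, h3⟩)
  · intro e
    rw [hmem]
    constructor
    · intro he
      exact ⟨Or.inr he, hc2 e he⟩
    · rintro ⟨h1 | h1, h2⟩
      · exact absurd h1.1 h2
      · exact h1

theorem PM_support {S : Finset (Fin n)} {F : Finset (Sym2 (Fin n))}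
    (hF : F ∈ perfectMatchings S) (v : Fin n) : v ∈ S ↔ ∃ e ∈ F, v ∈ e := by
  constructor
  · intro hv
    obtain ⟨x, _, hw⟩ := (mem_PM.mp hF).2.2 v hv
    exact ⟨s(v, x), (hw x).mpr rfl, Sym2.mem_mk_left v x⟩
  · rintro ⟨e, he, hve⟩
    obtain ⟨y, rfl⟩ := Sym2.mem_iff_exists.mp hve
    exact (PM_mem hF he).1

/-- The transition probability between two different graphs is at most `1 / (12 C(n,4))`. -/
theorem Qmat_le (hn : 4 ≤ n) (d : Fin n → ℕ) {G H : Realization d} (hne : G ≠ H) :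
    Qmat d G H ≤ 1 / (6 * (n.choose 4 : ℝ)) := by
  classical
  have hC : (0 : ℝ) < (n.choose 4 : ℝ) := by exact_mod_cast Nat.choose_pos hn
  have hne' : G.1 ≠ H.1 := fun h => hne (Subtype.ext h)
  set T : Finset (Fin n) → ℝ := fun S => ∑ p ∈ (perfectMatchings S).offDiag, (1 / 6) *
        (if switchMove G.1 p.1 p.2 = H.1 then (1 : ℝ) else 0) with hT
  have hfin : ∀ S, ∀ p ∈ (perfectMatchings S).offDiag, ∀ p' ∈ (perfectMatchings S).offDiag,
      switchMove G.1 p.1 p.2 = H.1 → switchMove G.1 p'.1 p'.2 = H.1 → p = p' := by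
    intro S p hp p' hp' h1 h2
    rw [Finset.mem_offDiag] at hp hp'
    obtain ⟨a1, a2⟩ := move_edges hne' hp.2.1 h1
    obtain ⟨b1, b2⟩ := move_edges hne' hp'.2.1 h2
    exact Prod.ext (Finset.ext fun e => by rw [a1, b1]) (Finset.ext fun e => by rw [a2, b2])
  have hT1 : ∀ S, T S ≤ 1 / 6 := by
    intro S
    by_cases hex : ∃ p ∈ (perfectMatchings S).offDiag, switchMove G.1 p.1 p.2 = H.1
    · obtain ⟨p, hp, hpH⟩ := hex
      rw [hT]
      simp only
      rw [Finset.sum_eq_single_of_mem p hp]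
      · rw [if_pos hpH, mul_one]
      · intro p' hp' hpp
        rw [if_neg, mul_zero]
        intro h2
        exact hpp (hfin S p' hp' p hp h2 hpH)
    · push Not at hex
      have : T S = 0 := by
        rw [hT]
        exact Finset.sum_eq_zero fun p hp => by rw [if_neg (hex p hp), mul_zero]
      rw [this]; norm_num
  have hT2 : ∀ S S', T S ≠ 0 → T S' ≠ 0 → S = S' := by
    intro S S' h1 h2
    obtain ⟨p, hp, hpn⟩ := Finset.exists_ne_zero_of_sum_ne_zero h1
    obtain ⟨p', hp', hpn'⟩ := Finset.exists_ne_zero_of_sum_ne_zero h2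
    have e1 : switchMove G.1 p.1 p.2 = H.1 := by
      by_contra hc
      rw [if_neg hc, mul_zero] at hpn
      exact hpn rfl
    have e2 : switchMove G.1 p'.1 p'.2 = H.1 := by
      by_contra hc
      rw [if_neg hc, mul_zero] at hpn'
      exact hpn' rfl
    rw [Finset.mem_offDiag] at hp hp'
    obtain ⟨a1, _⟩ := move_edges hne' hp.2.1 e1
    obtain ⟨b1, _⟩ := move_edges hne' hp'.2.1 e2
    ext v
    rw [PM_support hp.1, PM_support hp'.1]
    simp only [a1, b1]
  have hQ : Qmat d G H = ∑ S ∈ (univ : Finset (Fin n)).powersetCard 4,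
      (1 / (n.choose 4 : ℝ)) * T S := rfl
  rw [hQ]
  by_cases hex : ∃ S ∈ (univ : Finset (Fin n)).powersetCard 4, T S ≠ 0
  · obtain ⟨S, hS, hSn⟩ := hex
    rw [Finset.sum_eq_single_of_mem S hS]
    · calc (1 / (n.choose 4 : ℝ)) * T S ≤ (1 / (n.choose 4 : ℝ)) * (1 / 6) :=
            mul_le_mul_of_nonneg_left (hT1 S) (by positivity)
        _ = 1 / (6 * (n.choose 4 : ℝ)) := by field_simp
    · intro S' _ hSS
      by_contra hc
      refine hSS (hT2 S' S ?_ hSn)
      intro h0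
      rw [h0, mul_zero] at hc
      exact hc rfl
  · push Not at hex
    rw [Finset.sum_eq_zero fun S hS => by rw [hex S hS, mul_zero]]
    positivity

open Classical in
/-- The switch chain as a lazy symmetric chain with spectral gap `1 / (6 C(n,4))`. -/
theorem lazy_switch (hn : 4 ≤ n) (d : Fin n → ℕ)
    [Nonempty (Realization d)] :
    Lazy (Qmat d) (switchChain d) (1 / (6 * (n.choose 4 : ℝ))) := by
  have hC : (1 : ℝ) ≤ (n.choose 4 : ℝ) := by exact_mod_cast Nat.choose_pos hn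
  refine ⟨Qmat_nonneg d, Qmat_symm d, Qmat_row hn d, switchChain_eq d, by positivity, ?_, ?_⟩
  · rw [div_le_one (by positivity)]
    linarith
  · intro f hf
    have h := gap_of_poincare hn d (K := 1 / 2) (by norm_num) (poincare_half d) f hf
    have e : 12 * (n.choose 4 : ℝ) * (1 / 2) = 6 * (n.choose 4 : ℝ) := by ring
    rw [e] at h
    exact h

open Classical in
/-- **spectral gap** -/
theorem switch_eigen (hn : 4 ≤ n) (d : Fin n → ℕ) (l : ℝ) (f : Realization d → ℝ)
    (hf : IsEigen d l f) (hne : ∃ G H, f G ≠ f H) :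
    0 ≤ l ∧ l ≤ 1 - 1 / (6 * (n.choose 4 : ℝ)) := by
  obtain ⟨G, _⟩ := id hne
  have : Nonempty (Realization d) := ⟨G⟩
  exact (lazy_switch hn d).eigen hf.2 hne

open Classical in
/-- **mixing to every accuracy** -/
theorem switch_mixing (hn : 4 ≤ n) (d : Fin n → ℕ) {ε : ℝ} (hε : 0 < ε) (t : ℕ)
    (ht : 6 * (n.choose 4 : ℝ) * (Real.log (Nat.card (Realization d)) / 2 +
      Real.log (1 / (2 * ε))) ≤ t) : MixedWithin d ε t := by
  have hC : (0 : ℝ) < (n.choose 4 : ℝ) := by exact_mod_cast Nat.choose_pos hn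
  intro G
  have : Nonempty (Realization d) := ⟨G⟩
  refine (lazy_switch hn d).tv hε t ?_ G
  rw [Nat.card_eq_fintype_card] at ht
  rw [div_mul_eq_mul_div, one_mul, le_div_iff₀ (by positivity)]
  linarith only [ht]

theorem mixedBy_of (d : Fin n → ℕ) (t : ℕ) (h : MixedWithin d (1 / 4) t) : MixedBy d t := h

open Classical in
/-- the number of realizations in terms of the number of edges -/
theorem log_card_le (hn : 4 ≤ n) (d : Fin n → ℕ) (hd : Graphical d) :
    Real.log (Nat.card (Realization d)) ≤ (∑ v, (d v : ℝ)) * Real.log n := by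
  obtain ⟨G0, hG0⟩ := hd
  have hdeg : ∀ G : SimpleGraph (Fin n), HasDegrees d G → 2 * G.edgeFinset.card = ∑ v, d v := by
    intro G hG
    rw [← SimpleGraph.sum_degrees_eq_twice_card_edges]
    refine Finset.sum_congr rfl fun v _ => ?_
    rw [← hG v, ← SimpleGraph.card_neighborSet_eq_degree, Set.ncard_eq_toFinset_card',
      Set.toFinset_card]
  set m := G0.edgeFinset.card with hm
  have hm2 : 2 * m = ∑ v, d v := hdeg G0 hG0
  have h1 : Fintype.card (Realization d) ≤ (n.choose 2).choose m := by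
    have h2 : Fintype.card (Realization d) ≤
        ((⊤ : SimpleGraph (Fin n)).edgeFinset.powersetCard m).card := by
      rw [← Finset.card_univ]
      refine Finset.card_le_card_of_injOn (fun G => G.1.edgeFinset) ?_ ?_
      · intro G _
        rw [Finset.mem_coe, Finset.mem_powersetCard]
        refine ⟨SimpleGraph.edgeFinset_mono le_top, ?_⟩
        have h3 := hdeg G.1 G.2
        have h4 : G.1.edgeFinset.card = m := by omega
        convert h4
      · intro G _ H _ h
        exact Subtype.ext (SimpleGraph.edgeFinset_inj.mp h)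
    rwa [Finset.card_powersetCard, SimpleGraph.card_edgeFinset_top_eq_card_choose_two,
      Fintype.card_fin] at h2
  have hn0 : (0 : ℝ) < n := by
    have : (4 : ℝ) ≤ n := by exact_mod_cast hn
    linarith
  have h3 : (Fintype.card (Realization d) : ℝ) ≤ ((n : ℝ) ^ 2) ^ m := by
    have h4 : (Fintype.card (Realization d) : ℝ) ≤ ((n.choose 2).choose m : ℕ) := by
      exact_mod_cast h1
    refine h4.trans ?_
    have h5 : (n.choose 2).choose m ≤ (n.choose 2) ^ m := Nat.choose_le_pow _ _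
    have h6 : n.choose 2 ≤ n ^ 2 := Nat.choose_le_pow _ _
    calc (((n.choose 2).choose m : ℕ) : ℝ) ≤ ((n.choose 2 : ℕ) : ℝ) ^ m := by exact_mod_cast h5
      _ ≤ ((n : ℝ) ^ 2) ^ m := by
          refine pow_le_pow_left₀ (by positivity) ?_ m
          exact_mod_cast h6
  have hpos : (0 : ℝ) < Fintype.card (Realization d) := by
    have : Nonempty (Realization d) := ⟨⟨G0, hG0⟩⟩
    exact_mod_cast Fintype.card_pos
  rw [Nat.card_eq_fintype_card]
  calc Real.log (Fintype.card (Realization d)) ≤ Real.log (((n : ℝ) ^ 2) ^ m) :=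
        Real.log_le_log hpos h3
    _ = (2 * m : ℕ) * Real.log n := by
        rw [← pow_mul, Real.log_pow]
    _ = (∑ v, (d v : ℝ)) * Real.log n := by
        rw [hm2]; push_cast; rfl

/-- **mixing in terms of the number of edges** -/
theorem switch_edges (hn : 4 ≤ n) (d : Fin n → ℕ) (hd : Graphical d) (t : ℕ)
    (ht : (n : ℝ) ^ 4 * ((∑ v, (d v : ℝ)) * Real.log n + 2) / 8 ≤ t) : MixedBy d t := by
  refine mixedBy_of d t (switch_mixing hn d (by norm_num) t (le_trans ?_ ht))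
  have h1 := log_card_le hn d hd
  have h4 : (n.choose 4 : ℝ) ≤ (n : ℝ) ^ 4 / 24 := by
    have := Nat.choose_le_pow_div (α := ℝ) 4 n
    simpa [Nat.factorial] using this
  have hl : Real.log (1 / (2 * (1 / 4))) ≤ 1 := by
    have e : (1 / (2 * (1 / 4)) : ℝ) = 2 := by norm_num
    rw [e]
    have := Real.log_two_lt_d9
    linarith
  have hl0 : 0 ≤ Real.log (1 / (2 * (1 / 4))) := Real.log_nonneg (by norm_num)
  have hc0 : 0 ≤ Real.log (Nat.card (Realization d)) := Real.log_natCast_nonneg _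
  calc 6 * (n.choose 4 : ℝ) * (Real.log (Nat.card (Realization d)) / 2 +
        Real.log (1 / (2 * (1 / 4))))
      ≤ 6 * ((n : ℝ) ^ 4 / 24) * ((∑ v, (d v : ℝ)) * Real.log n / 2 + 1) := by gcongr
    _ = (n : ℝ) ^ 4 * ((∑ v, (d v : ℝ)) * Real.log n + 2) / 8 := by ring

end Chain

end Vale.Agent.P335.H586
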